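import Vale.Agent.P148.R2.H565.Loc3
import Vale.Agent.P148.R2.H592.Contr

/-!
# P148, rows N1, N2: the far boundary of a connected set is connected; escape from convex sets
-/

open Set Metric Function Relation

namespace Vale.Agent.P148.R2.H959

open H592 H565

/-- `x` and `y` are joined inside `Y`. -/
abbrev Jn (X Y : Set ℂ) (x y : ℂ) : Prop := ReflTransGen (fun a b => nbr X a b ∧ a ∈ Y ∧ b ∈ Y) x y

theorem Jn.mono {X Y Y' : Set ℂ} (hY : Y ⊆ Y') {x y : ℂ} (h : Jn X Y x y) : Jn X Y' x y :=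
  ReflTransGen.mono (fun _ _ (h : nbr X _ _ ∧ _ ∧ _) => ⟨h.1, hY h.2.1, hY h.2.2⟩) _ _ h

theorem Jn.symm {X Y : Set ℂ} {x y : ℂ} (h : Jn X Y x y) : Jn X Y y x := by
  induction h with
  | refl => exact ReflTransGen.refl
  | tail _ h1 ih => exact ReflTransGen.head ⟨nbr_symm h1.1, h1.2.2, h1.2.1⟩ ih

theorem Jn.mem {X Y : Set ℂ} {x y : ℂ} (h : Jn X Y x y) (hx : x ∈ Y) : y ∈ Y := by
  induction h with
  | refl => exact hx
  | tail _ h1 _ => exact h1.2.2

theorem Jn.mem' {X Y : Set ℂ} {x y : ℂ} (h : Jn X Y x y) (hy : y ∈ Y) : x ∈ Y := h.symm.mem hy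

theorem Jn.single {X Y : Set ℂ} {x y : ℂ} (h : nbr X x y) (hx : x ∈ Y) (hy : y ∈ Y) : Jn X Y x y :=
  ReflTransGen.single ⟨h, hx, hy⟩

section walks

variable {X : Set ℂ} {b : ZMod 3 → ℂ} (h : HullTri X b) {V : Type*} (π : ℂ → V) (hπ : Fib X π)

theorem src_tri (q : Fc X b × ZMod 3) : (h.tri258 π hπ).src q = π (tail q) := rfl

theorem tgt_tri (q : Fc X b × ZMod 3) : (h.tri258 π hπ).tgt q = π (head q) := by
  show π (tail (h.rv q)) = π (head q)
  rw [h.tail_rv]

theorem apex_tri (q : Fc X b × ZMod 3) : (h.tri258 π hπ).apex q = π (vc q.1 q.2) := by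
  show π (tail ((q.1, q.2 + 1).1, (q.1, q.2 + 1).2 + 1)) = π (vc q.1 q.2)
  rw [HullTri.tail_next, HullTri.head_next]

/-- A path of sites gives a walk of darts. -/
theorem walk_of_jn {Y : Set ℂ} {x y : ℂ} (hxy : Jn X Y x y) :
    ∃ l : List (Fc X b × ZMod 3), (h.tri258 π hπ).Walk (π x) (π y) l ∧
      ∀ g ∈ l, tail g ∈ Y ∧ head g ∈ Y := by
  induction hxy with
  | refl => exact ⟨[], H258.Tri.Walk.nil _, fun g hg => by simp at hg⟩
  | tail _ hbc ih =>
    rename_i c d _
    obtain ⟨l, hl, hY⟩ := ih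
    have h1 := H258.Tri.Walk.single (T := h.tri258 π hπ) (h.dart hbc.1)
    rw [src_tri, tgt_tri, h.tail_dart, h.head_dart] at h1
    refine ⟨l ++ [h.dart hbc.1], hl.append h1, fun g hg => ?_⟩
    rw [List.mem_append, List.mem_singleton] at hg
    rcases hg with hg | rfl
    · exact hY g hg
    · rw [h.tail_dart, h.head_dart]
      exact hbc.2

end walks

/-- The boundary of a set of sites. -/
def bd (X K : Set ℂ) : Set ℂ := {z | z ∈ X ∧ z ∉ K ∧ ∃ u ∈ K, nbr X z u}

/-- **The boundary of a connected set, seen from a component of its complement, is connected.** -/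
theorem far_conn {X : Set ℂ} {b : ZMod 3 → ℂ} (h : HullTri X b) {K : Set ℂ} (hK : ConnIn X K)
    {x y : ℂ} (hx : x ∈ bd X K) (hy : y ∈ bd X K) (hxy : Jn X (X \ K) x y) :
    Jn X (bd X K) x y := by
  classical
  obtain ⟨hxX, hxK, u, huK, hxu⟩ := hx
  obtain ⟨hyX, hyK, w, hwK, hyw⟩ := hy
  set π : ℂ → X := idmap X ⟨x, hxX⟩ with hπd
  have hπ : Fib X π := fib_id X ⟨x, hxX⟩
  have hval : ∀ z ∈ X, (π z).1 = z := by
    intro z hz
    rw [hπd]
    unfold idmap
    rw [dif_pos hz]
  set T := h.tri258 π hπ with hT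
  set σ : X → Bool := fun v => decide (v.1 ∈ K) with hσ
  have hσ1 : ∀ z ∈ X, σ (π z) = decide (z ∈ K) := by
    intro z hz
    rw [hσ]
    simp only
    rw [hval z hz]
  set d := h.dart hxu with hd
  set e := h.dart hyw with he
  have td : tail d = x := h.tail_dart _
  have hdd : head d = u := h.head_dart _
  have te : tail e = y := h.tail_dart _
  have hde : head e = w := h.head_dart _
  have hbi : T.Bi σ d := by
    show σ (T.src d) ≠ σ (T.tgt d)
    rw [hT, src_tri, tgt_tri, td, hdd, hσ1 _ hxX, hσ1 _ hxu.2.1]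
    simp [hxK, huK]
  -- the sources of the strand
  have hsrc : ∀ n, tail ((T.st σ)^[n] d) ∈ bd X K := by
    intro n
    have h1 := T.col_src_iter σ d n
    have h2 := T.col_tgt_iter σ d n
    set g := (T.st σ)^[n] d with hg
    have hn := h.nbr_th g
    rw [hT, src_tri, src_tri, td, hσ1 _ hxX, hσ1 _ hn.1] at h1
    rw [hT, tgt_tri, tgt_tri, hdd, hσ1 _ hxu.2.1, hσ1 _ hn.2.1] at h2
    refine ⟨hn.1, ?_, head g, ?_, hn⟩
    · have : decide (tail g ∈ K) = false := by rw [h1]; simp [hxK]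
      simpa using this
    · have : decide (head g ∈ K) = true := by rw [h2]; simp [huK]
      simpa using this
  have hstep : ∀ n, Jn X (bd X K) x (tail ((T.st σ)^[n] d)) := by
    intro n
    induction n with
    | zero => rw [iterate_zero, id, td]
    | succ n ih =>
      have h1 := hsrc n
      have h2 := hsrc (n + 1)
      rw [iterate_succ', comp_apply] at h2 ⊢
      set g := (T.st σ)^[n] d with hg
      by_cases hm : T.Mi σ g
      · have e1 : T.src (T.st σ g) = T.apex g := T.src_st_mi hm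
        rw [hT, src_tri, apex_tri] at e1
        have hX1 : tail ((h.tri258 π hπ).st σ g) ∈ X := h2.1
        have h3 := h.nbr_th (g.1, g.2 + 2)
        rw [HullTri.tail_next2, HullTri.head_next2] at h3
        have e2 : tail (T.st σ g) = vc g.1 g.2 := by
          rw [← hval _ hX1, ← hval _ h3.1, e1]
        refine ih.tail ⟨?_, h1, h2⟩
        rw [e2]
        exact nbr_symm h3
      · by_cases hb : T.Bi σ g
        · have e1 : T.src (T.st σ g) = T.src g := T.src_st_nmi hb hm
          rw [hT, src_tri, src_tri] at e1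
          have hX1 : tail ((h.tri258 π hπ).st σ g) ∈ X := h2.1
          have e2 : tail (T.st σ g) = tail g := by
            rw [← hval _ hX1, ← hval _ h1.1, e1]
          rw [e2]
          exact ih
        · rw [T.st_not hb]
          exact ih
  by_cases hed : e = d
  · have : y = x := by rw [← te, ← td, hed]
    rw [this]
  · obtain ⟨p, hp, hpY⟩ := walk_of_jn h π hπ hxy
    obtain ⟨q, hq, hqY⟩ := walk_of_jn h π hπ (hK.2 w hwK u huK)
    have htube : Tube T σ d e p q := by
      refine ⟨hbi, ?_, ?_, hed, ?_, ?_, ?_, ?_⟩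
      · rw [hT, src_tri, src_tri, te, td, hσ1 _ hxX, hσ1 _ hyX]
        simp [hxK, hyK]
      · rw [hT, tgt_tri, tgt_tri, hde, hdd, hσ1 _ hyw.2.1, hσ1 _ hxu.2.1]
        simp [huK, hwK]
      · rw [hT, src_tri, src_tri, te, td]
        exact hp
      · rw [hT, tgt_tri, tgt_tri, hde, hdd]
        exact hq
      · intro g hg
        obtain ⟨g1, g2⟩ := hpY g hg
        rw [hT, src_tri, src_tri, tgt_tri, td, hσ1 _ hxX, hσ1 _ g1.1, hσ1 _ g2.1]
        simp [hxK, g1.2, g2.2]
      · intro g hg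
        obtain ⟨g1, g2⟩ := hqY g hg
        rw [hT, src_tri, tgt_tri, tgt_tri, hdd, hσ1 _ (hK.1 g1), hσ1 _ (hK.1 g2), hσ1 _ hxu.2.1]
        simp [huK, g1, g2]
    have hP : T.Planar := h.planar258 π hπ
    obtain ⟨N, hN, -⟩ := T.exists_pot hP htube.closed d
    have hfin := h.finite_Fc
    obtain ⟨n, -, -, hn, -, -⟩ := htube.two_feet hN
    have := hstep n
    rw [hn, te] at this
    exact this

/-! ### escape from a convex set -/

/-- The vertices of the hull are joined to each other. -/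
theorem hull_jn {X : Set ℂ} {b : ZMod 3 → ℂ} (h : HullTri X b) {Y : Set ℂ} (hb : ∀ j, b j ∈ Y)
    (i j : ZMod 3) : Jn X Y (b i) (b j) := by
  have h1 : ∀ j, Jn X Y (b j) (b (j + 1)) := fun j =>
    Jn.single (nbr_symm (h.nbr_hull j)) (hb _) (hb _)
  rcases z3_cases i j with rfl | rfl | rfl
  · exact ReflTransGen.refl
  · exact h1 i
  · have h2 := h1 (i + 1)
    rw [z3_11] at h2
    exact (h1 i).trans h2

/-- Some vertex of the hull is at least as high as a given site. -/
theorem exists_hull_ge {X : Set ℂ} {b : ZMod 3 → ℂ} (h : HullTri X b) {x : ℂ} (hx : x ∈ X)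
    (u : ℂ) : ∃ j, u.re * x.re + u.im * x.im ≤ u.re * (b j).re + u.im * (b j).im := by
  by_cases hxb : ∃ j, x = b j
  · obtain ⟨j, rfl⟩ := hxb
    exact ⟨j, le_rfl⟩
  push Not at hxb
  by_contra hcon
  push Not at hcon
  have h0 := h.inside x hx hxb 0
  have h1 := h.inside x hx hxb 1
  have h2 := h.inside x hx hxb 2
  have c0 := hcon 0
  have c1 := hcon 1
  have c2 := hcon 2
  have e1 : (1 : ZMod 3) + 1 = 2 := by decide
  have e2 : (2 : ZMod 3) + 1 = 0 := by decide
  rw [zero_add] at h0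
  rw [e1] at h1
  rw [e2] at h2
  unfold cr at h0 h1 h2
  -- barycentric coordinates
  set A := b 0
  set B := b 1
  set C := b 2
  nlinarith [mul_lt_mul_of_pos_left c2 h0, mul_lt_mul_of_pos_left c0 h1,
    mul_lt_mul_of_pos_left c1 h2]

/-- **Escape.** A site outside the convex set `K` is joined off `K` to the hull. -/
theorem escape {X : Set ℂ} {b : ZMod 3 → ℂ} (h : HullTri X b) {K : Set ℂ} (hK : Convex ℝ K)
    (hKo : IsOpen K) (hb : ∀ j, b j ∉ K) {x : ℂ} (hx : x ∈ X) (hxK : x ∉ K) :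
    Jn X (X \ K) x (b 0) := by
  classical
  obtain ⟨f, hf⟩ := geometric_hahn_banach_open_point hK hKo hxK
  set u : ℂ := ⟨f 1, f Complex.I⟩ with hu
  have hfu : ∀ z : ℂ, f z = u.re * z.re + u.im * z.im := by
    intro z
    have h1 : z = z.re • (1 : ℂ) + z.im • Complex.I := by
      simp
    conv_lhs => rw [h1]
    rw [map_add, map_smul, map_smul]
    simp only [hu, smul_eq_mul]
    ring
  -- a level below `x` and above the sites of `K`
  obtain ⟨a, ha1, ha2⟩ : ∃ a, a < f x ∧ ∀ z ∈ X ∩ K, f z ≤ a := by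
    by_cases hne : (X ∩ K).Nonempty
    · obtain ⟨z₀, hz₀, hmax⟩ := Set.exists_max_image (X ∩ K) f (h.fin.inter_of_left K) hne
      exact ⟨f z₀, hf z₀ hz₀.2, hmax⟩
    · refine ⟨f x - 1, by linarith, fun z hz => absurd ⟨z, hz⟩ hne⟩
  have hsub : X ∩ {z | a < u.re * z.re + u.im * z.im} ⊆ X \ K := by
    rintro z ⟨hzX, hz⟩
    refine ⟨hzX, fun hzK => ?_⟩
    have := ha2 z ⟨hzX, hzK⟩
    rw [hfu] at this
    exact absurd hz (not_lt.2 this)
  obtain ⟨j, hj⟩ := exists_hull_ge h hx u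
  have hxm : x ∈ X ∩ {z | a < u.re * z.re + u.im * z.im} := ⟨hx, by rw [hfu] at ha1; exact ha1⟩
  have hjm : b j ∈ X ∩ {z | a < u.re * z.re + u.im * z.im} :=
    ⟨h.mem j, lt_of_lt_of_le hxm.2 hj⟩
  exact ((connIn_half h.fin u a).lift hsub hxm hjm).trans
    (hull_jn h (Y := X \ K) (fun j => ⟨h.mem j, hb j⟩) j 0)

end Vale.Agent.P148.R2.H959
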