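import Vale.Agent.P148.R2.H678.CombDef

/-!
# P148, rows N1, N2: the regions of the tubes of the comb ring

`reg M k` is the segment from gate `k` to gate `k + 1`, thickened by an open square of half side
`a / 8`.
-/

open Set Metric Complex

namespace Vale.Agent.P148.R2.H959

open Vale.Agent.P148.R2.N Vale.Agent.P148.R2.H678
open Vale.Agent.P148.R2.H995 (nsup Box Rc)

/-- The region of the tube from gate `k` to gate `k + 1`. -/
noncomputable def reg (M k : ℕ) : Set ℂ :=
  {z | ∃ t : ℝ, 0 ≤ t ∧ t ≤ 1 ∧ z ∈ csq (gateC M k + (t : ℂ) * disp M k) (ms M / 8)}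

variable {M k : ℕ}

theorem isOpen_csq (z : ℂ) (r : ℝ) : IsOpen (csq z r) := by
  have h1 : IsOpen {w : ℂ | |w.re - z.re| < r} :=
    isOpen_lt (by fun_prop) continuous_const
  have h2 : IsOpen {w : ℂ | |w.im - z.im| < r} :=
    isOpen_lt (by fun_prop) continuous_const
  exact h1.inter h2

theorem isOpen_reg (M k : ℕ) : IsOpen (reg M k) := by
  have : reg M k = ⋃ t ∈ Icc (0 : ℝ) 1, csq (gateC M k + (t : ℂ) * disp M k) (ms M / 8) := by
    ext z
    simp only [reg, mem_ofPred_eq, mem_iUnion, mem_Icc, exists_prop, and_assoc]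
  rw [this]
  exact isOpen_biUnion fun t _ => isOpen_csq _ _

theorem convex_reg (M k : ℕ) : Convex ℝ (reg M k) := by
  rintro z ⟨t, t0, t1, h1, h2⟩ z' ⟨t', t0', t1', h1', h2'⟩ a b ha hb hab
  refine ⟨a * t + b * t', by positivity, ?_, ?_, ?_⟩
  · nlinarith
  · have e : (a • z + b • z').re - (gateC M k + ((a * t + b * t' : ℝ) : ℂ) * disp M k).re =
        a * (z.re - (gateC M k + (t : ℂ) * disp M k).re) +
        b * (z'.re - (gateC M k + (t' : ℂ) * disp M k).re) := by
      simp only [add_re, real_smul, mul_re, ofReal_re, ofReal_im]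
      have : b = 1 - a := by linarith
      subst this
      ring
    rw [e]
    rw [abs_lt] at h1 h1' ⊢
    rcases ha.lt_or_eq with ha0 | ha0
    · constructor <;> nlinarith [mul_pos ha0 (sub_pos.2 h1.1), mul_pos ha0 (sub_pos.2 h1.2),
        mul_nonneg hb (sub_nonneg.2 h1'.1.le), mul_nonneg hb (sub_nonneg.2 h1'.2.le)]
    · have hb1 : b = 1 := by linarith
      rw [← ha0, hb1]
      constructor <;> linarith [h1'.1, h1'.2]
  · have e : (a • z + b • z').im - (gateC M k + ((a * t + b * t' : ℝ) : ℂ) * disp M k).im =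
        a * (z.im - (gateC M k + (t : ℂ) * disp M k).im) +
        b * (z'.im - (gateC M k + (t' : ℂ) * disp M k).im) := by
      simp only [add_im, real_smul, mul_im, ofReal_re, ofReal_im]
      have : b = 1 - a := by linarith
      subst this
      ring
    rw [e]
    rw [abs_lt] at h2 h2' ⊢
    rcases ha.lt_or_eq with ha0 | ha0
    · constructor <;> nlinarith [mul_pos ha0 (sub_pos.2 h2.1), mul_pos ha0 (sub_pos.2 h2.2),
        mul_nonneg hb (sub_nonneg.2 h2'.1.le), mul_nonneg hb (sub_nonneg.2 h2'.2.le)]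
    · have hb1 : b = 1 := by linarith
      rw [← ha0, hb1]
      constructor <;> linarith [h2'.1, h2'.2]

theorem reg_add_nc (M k : ℕ) : reg M (k + nc M) = reg M k := by
  unfold reg
  rw [gateC_add_nc, disp_add_nc]

theorem gbox_subset_reg (M k : ℕ) : gbox M k ⊆ reg M k := by
  intro z hz
  refine ⟨0, le_rfl, zero_le_one, ?_⟩
  rw [ofReal_zero, zero_mul, add_zero]
  exact hz

theorem gbox_succ_subset_reg (hM : 0 < M) (k : ℕ) : gbox M (k + 1) ⊆ reg M k := by
  intro z hz
  refine ⟨1, zero_le_one, le_rfl, ?_⟩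
  rw [ofReal_one, one_mul, ← gateC_succ hM]
  exact hz

/-- Coordinates in a straight region. -/
theorem reg_straight (hM : 0 < M) (h : k % (2 * M + 1) ≠ 2 * M) {w : ℂ}
    (hw : I ^ (k / (2 * M + 1)) * w ∈ reg M k) :
    (1 + 3 * ms M / 8 < w.re ∧ w.re < 1 + 5 * ms M / 8) ∧
      (-1 + (k % (2 * M + 1) : ℕ) * ms M - ms M / 8 < w.im ∧
        w.im < -1 + (k % (2 * M + 1) : ℕ) * ms M + ms M + ms M / 8) := by
  have h0 := ms_pos hM
  obtain ⟨t, t0, t1, hz⟩ := hw
  unfold gateC disp at hz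
  rw [if_neg h, mul_left_comm, ← mul_add, csq_I_pow, mem_csq, abs_lt, abs_lt] at hz
  simp only [add_re, add_im, mul_re, mul_im, ofReal_re, ofReal_im, mul_zero, zero_mul,
    sub_zero, add_zero] at hz
  obtain ⟨⟨a1, a2⟩, a3, a4⟩ := hz
  have b1 : 0 ≤ t * ms M := by positivity
  have b2 : t * ms M ≤ ms M := by nlinarith
  exact ⟨⟨by linarith, by linarith⟩, by linarith, by linarith⟩

/-- Coordinates in a corner region. -/
theorem reg_corner (hM : 0 < M) (h : k % (2 * M + 1) = 2 * M) {w : ℂ}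
    (hw : I ^ (k / (2 * M + 1)) * w ∈ reg M k) :
    (1 - ms M / 8 < w.re ∧ w.re < 1 + 5 * ms M / 8) ∧
      (1 - ms M / 8 < w.im ∧ w.im < 1 + 5 * ms M / 8) := by
  have h0 := ms_pos hM
  have hMa := mod_mul_eq hM
  obtain ⟨t, t0, t1, hz⟩ := hw
  unfold gateC disp at hz
  rw [if_pos h, mul_left_comm, ← mul_add, csq_I_pow, mem_csq, abs_lt, abs_lt, h] at hz
  simp only [add_re, add_im, mul_re, mul_im, ofReal_re, ofReal_im, zero_mul,
    sub_zero, add_zero] at hz
  obtain ⟨⟨a1, a2⟩, a3, a4⟩ := hz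
  have b1 : 0 ≤ t * (ms M / 2) := by positivity
  have b2 : t * (ms M / 2) ≤ ms M / 2 := by nlinarith
  rw [hMa] at a3 a4
  exact ⟨⟨by linarith, by linarith⟩, by linarith, by linarith⟩

/-- Coordinates in any region. -/
theorem reg_bound (hM : 0 < M) {w : ℂ} (hw : I ^ (k / (2 * M + 1)) * w ∈ reg M k) :
    (1 - ms M / 8 < w.re ∧ w.re < 1 + 5 * ms M / 8) ∧
      (-1 - ms M / 8 < w.im ∧ w.im < 1 + 5 * ms M / 8) := by
  have h0 := ms_pos hM
  have h1 := ms_le_one (M := M)
  by_cases h : k % (2 * M + 1) = 2 * M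
  · obtain ⟨⟨a1, a2⟩, a3, a4⟩ := reg_corner hM h hw
    exact ⟨⟨a1, a2⟩, by linarith, a4⟩
  · obtain ⟨⟨a1, a2⟩, a3, a4⟩ := reg_straight hM h hw
    have hlt : k % (2 * M + 1) + 1 ≤ 2 * M := by
      have := mod_le M k
      omega
    have b1 : (((k % (2 * M + 1) : ℕ) : ℝ) + 1) * ms M ≤ 2 := by
      rw [← mod_mul_eq hM]
      apply mul_le_mul_of_nonneg_right _ h0.le
      exact_mod_cast hlt
    have b2 : (0 : ℝ) ≤ ((k % (2 * M + 1) : ℕ) : ℝ) * ms M := by positivity
    refine ⟨⟨by linarith, a2⟩, by linarith, ?_⟩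
    have : (((k % (2 * M + 1) : ℕ) : ℝ) + 1) * ms M = ((k % (2 * M + 1) : ℕ) : ℝ) * ms M + ms M := by
      ring
    linarith

theorem I_pow_three : (I : ℂ) ^ 3 = -I := by rw [pow_succ, I_sq]; ring

/-- **The regions of non adjacent tubes are disjoint.** -/
theorem disjoint_reg (hM : 0 < M) {j k : ℕ} (h1 : j + 2 ≤ k) (h2 : k + 2 ≤ j + nc M) :
    Disjoint (reg M j) (reg M k) := by
  rw [Set.disjoint_left]
  intro z hz hz'
  have h0 := ms_pos hM
  have hle := ms_le_one (M := M)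
  have hMa := mod_mul_eq hM
  have hnc : nc M = 4 * (2 * M + 1) := rfl
  obtain ⟨w, hw⟩ := exists_eq_I_pow_mul (j / (2 * M + 1)) z
  obtain ⟨w', hw'⟩ := exists_eq_I_pow_mul (k / (2 * M + 1)) z
  have hz1 : I ^ (j / (2 * M + 1)) * w ∈ reg M j := hw ▸ hz
  have hz2 : I ^ (k / (2 * M + 1)) * w' ∈ reg M k := hw' ▸ hz'
  have q1 := Nat.div_add_mod j (2 * M + 1)
  have q2 := Nat.div_add_mod k (2 * M + 1)
  have m1 := mod_le M j
  have m2 := mod_le M k
  have B1 := reg_bound hM hz1
  have B2 := reg_bound hM hz2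
  have S1 := fun h => reg_straight hM (k := j) h hz1
  have S2 := fun h => reg_straight hM (k := k) h hz2
  have C1 := fun h => reg_corner hM (k := j) h hz1
  have C2 := fun h => reg_corner hM (k := k) h hz2
  have hjs : j % (2 * M + 1) ≠ 2 * M → ((j % (2 * M + 1) : ℕ) : ℝ) * ms M + ms M ≤ 2 := by
    intro h
    have hlt : j % (2 * M + 1) + 1 ≤ 2 * M := by omega
    have b1 : (((j % (2 * M + 1) : ℕ) : ℝ) + 1) * ms M ≤ 2 := by
      rw [← hMa]
      apply mul_le_mul_of_nonneg_right _ h0.le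
      exact_mod_cast hlt
    linarith
  have hks : k % (2 * M + 1) ≠ 2 * M → ((k % (2 * M + 1) : ℕ) : ℝ) * ms M + ms M ≤ 2 := by
    intro h
    have hlt : k % (2 * M + 1) + 1 ≤ 2 * M := by omega
    have b1 : (((k % (2 * M + 1) : ℕ) : ℝ) + 1) * ms M ≤ 2 := by
      rw [← hMa]
      apply mul_le_mul_of_nonneg_right _ h0.le
      exact_mod_cast hlt
    linarith
  set sj := j / (2 * M + 1) with hsj
  set sk := k / (2 * M + 1) with hsk
  set rj := j % (2 * M + 1) with hrj
  set rk := k % (2 * M + 1) with hrk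
  have hsjk : sj ≤ sk := Nat.div_le_div_right (by omega)
  have hsk4 : sk ≤ sj + 4 := by
    by_contra hc
    push Not at hc
    have : (2 * M + 1) * (sj + 5) ≤ (2 * M + 1) * sk := Nat.mul_le_mul_left _ hc
    have e3 : (2 * M + 1) * (sj + 5) = (2 * M + 1) * sj + 5 * (2 * M + 1) := by ring
    omega
  -- the rotation between the two frames
  have e0 : w = I ^ (sk - sj) * w' := by
    have h3 : (I : ℂ) ^ sj * w = I ^ sj * (I ^ (sk - sj) * w') := by
      rw [← hw, hw', ← mul_assoc, ← pow_add, Nat.add_sub_cancel' hsjk]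
    exact mul_left_cancel₀ (pow_ne_zero _ I_ne_zero) h3
  obtain ⟨δ, hδ⟩ : ∃ δ, sk = sj + δ := ⟨sk - sj, by omega⟩
  have hδ4 : δ ≤ 4 := by omega
  rw [hδ, Nat.add_sub_cancel_left] at e0
  have q3 : k = (2 * M + 1) * sj + (2 * M + 1) * δ + rk := by
    rw [← q2, hδ]; ring
  -- integer comparison gives real comparison
  have cast_le : ∀ p q : ℕ, p + 2 ≤ q → (p : ℝ) * ms M + 2 * ms M ≤ (q : ℝ) * ms M := by
    intro p q hpq
    have : ((p : ℝ) + 2) * ms M ≤ (q : ℝ) * ms M := by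
      apply mul_le_mul_of_nonneg_right _ h0.le
      exact_mod_cast hpq
    linarith
  have cast_one : ∀ q : ℕ, 1 ≤ q → ms M ≤ (q : ℝ) * ms M := by
    intro q hq
    have : (1 : ℝ) * ms M ≤ (q : ℝ) * ms M := by
      apply mul_le_mul_of_nonneg_right _ h0.le
      exact_mod_cast hq
    linarith
  have hcast : ∀ q : ℕ, q = 2 * M → (q : ℝ) * ms M = 2 := by
    intro q hq
    rw [hq]; exact hMa
  obtain ⟨⟨a1, a2⟩, a3, a4⟩ := B1
  obtain ⟨⟨b1, b2⟩, b3, b4⟩ := B2
  interval_cases δ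
  · -- same side
    rw [pow_zero, one_mul] at e0
    subst e0
    have hr : rj + 2 ≤ rk := by omega
    have hj : rj ≠ 2 * M := by omega
    obtain ⟨-, c3, c4⟩ := S1 hj
    have hcl := cast_le _ _ hr
    by_cases hk : rk = 2 * M
    · obtain ⟨-, d3, d4⟩ := C2 hk
      have := hcast _ hk
      linarith
    · obtain ⟨-, d3, d4⟩ := S2 hk
      linarith
  · -- next side
    rw [pow_one] at e0
    have e1 : w.re = -w'.im := by rw [e0]; simp
    have e2 : w.im = w'.re := by rw [e0]; simp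
    by_cases hk : rk = 2 * M
    · obtain ⟨-, d3, d4⟩ := C2 hk
      linarith
    · obtain ⟨⟨d1, d2⟩, d3, d4⟩ := S2 hk
      by_cases hj : rj = 2 * M
      · have hk1 : 1 ≤ rk := by omega
        have := cast_one _ hk1
        linarith
      · obtain ⟨⟨c1, c2⟩, c3, c4⟩ := S1 hj
        have := hjs hj
        linarith
  · -- opposite side
    rw [I_sq, neg_one_mul] at e0
    have e1 : w.re = -w'.re := by rw [e0]; simp
    linarith
  · -- previous side
    rw [I_pow_three] at e0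
    have e1 : w.re = w'.im := by rw [e0]; simp
    have e2 : w.im = -w'.re := by rw [e0]; simp
    by_cases hj : rj = 2 * M
    · obtain ⟨-, c3, c4⟩ := C1 hj
      linarith
    · obtain ⟨⟨c1, c2⟩, c3, c4⟩ := S1 hj
      by_cases hk : rk = 2 * M
      · have hj1 : 1 ≤ rj := by omega
        have := cast_one _ hj1
        linarith
      · obtain ⟨⟨d1, d2⟩, d3, d4⟩ := S2 hk
        have := hks hk
        linarith
  · -- once around
    rw [I_pow_four, one_mul] at e0
    subst e0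
    have hr : rk + 2 ≤ rj := by omega
    have hk : rk ≠ 2 * M := by omega
    obtain ⟨-, d3, d4⟩ := S2 hk
    have hcl := cast_le _ _ hr
    by_cases hj : rj = 2 * M
    · obtain ⟨-, c3, c4⟩ := C1 hj
      have := hcast _ hj
      linarith
    · obtain ⟨-, c3, c4⟩ := S1 hj
      linarith

/-! ### position of the regions -/

theorem nsup_I_mul (z : ℂ) : nsup (I * z) = nsup z := by
  simp [nsup, mul_re, mul_im, max_comm]

theorem nsup_I_pow_mul (s : ℕ) (z : ℂ) : nsup (I ^ s * z) = nsup z := by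
  induction s with
  | zero => simp
  | succ s ih => rw [pow_succ', mul_assoc, nsup_I_mul, ih]

theorem reg_nsup (hM : 0 < M) {z : ℂ} (hz : z ∈ reg M k) :
    1 - ms M / 8 < nsup z ∧ nsup z < 1 + 5 * ms M / 8 := by
  have h0 := ms_pos hM
  have h1 := ms_le_one (M := M)
  obtain ⟨w, rfl⟩ := exists_eq_I_pow_mul (k / (2 * M + 1)) z
  rw [nsup_I_pow_mul]
  obtain ⟨⟨a1, a2⟩, a3, a4⟩ := reg_bound hM hz
  constructor
  · refine lt_of_lt_of_le ?_ (le_max_left _ _)
    rw [abs_of_pos (by linarith)]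
    exact a1
  · refine max_lt ?_ ?_
    · rw [abs_lt]; constructor <;> linarith
    · rw [abs_lt]; constructor <;> linarith

/-- The `k`-th region is inside the square of half side `5 a / 8` around the centre of the cell. -/
theorem reg_subset_csq (hM : 0 < M) (k : ℕ) : reg M k ⊆ csq (cellC M k) (5 * ms M / 8) := by
  intro z hz
  have h0 := ms_pos hM
  have hMa := mod_mul_eq hM
  obtain ⟨w, rfl⟩ := exists_eq_I_pow_mul (k / (2 * M + 1)) z
  unfold cellC
  rw [csq_I_pow, mem_csq, abs_lt, abs_lt]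
  by_cases h : k % (2 * M + 1) = 2 * M
  · obtain ⟨⟨a1, a2⟩, a3, a4⟩ := reg_corner hM h hz
    rw [h, hMa]
    refine ⟨⟨?_, ?_⟩, ?_, ?_⟩ <;> simp only <;> linarith
  · obtain ⟨⟨a1, a2⟩, a3, a4⟩ := reg_straight hM h hz
    refine ⟨⟨?_, ?_⟩, ?_, ?_⟩ <;> simp only <;> linarith

theorem nsup_cellC_succ (hM : 0 < M) (k : ℕ) : nsup (cellC M (k + 1) - cellC M k) ≤ ms M := by
  have h0 := ms_pos hM
  have hMa := mod_mul_eq hM
  unfold cellC
  by_cases h : k % (2 * M + 1) = 2 * M
  · obtain ⟨e1, e2⟩ := div_add_one_of_eq hM h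
    rw [e1, e2, h, pow_succ, mul_assoc, ← mul_sub, nsup_I_pow_mul]
    refine max_le ?_ ?_
    · simp only [Nat.cast_zero, zero_mul, add_zero, sub_re, mul_re, I_re, I_im, zero_sub, one_mul]
      rw [abs_le]; constructor <;> linarith
    · simp only [Nat.cast_zero, zero_mul, add_zero, sub_im, mul_im, I_re, I_im, one_mul]
      rw [hMa, abs_le]; constructor <;> linarith
  · obtain ⟨e1, e2⟩ := div_add_one_of_ne h
    rw [e1, e2, ← mul_sub, nsup_I_pow_mul]
    refine max_le ?_ ?_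
    · simp [h0.le]
    · simp only [sub_im]
      push_cast
      rw [abs_le]; constructor <;> linarith

theorem csq_mono_of_nsup {z z' : ℂ} {r r' δ : ℝ} (h : nsup (z' - z) ≤ δ) (hr : r + δ ≤ r') :
    csq z' r ⊆ csq z r' := by
  rintro w ⟨h1, h2⟩
  have a1 : |(z' - z).re| ≤ δ := (le_max_left _ _).trans h
  have a2 : |(z' - z).im| ≤ δ := (le_max_right _ _).trans h
  rw [sub_re] at a1
  rw [sub_im] at a2
  rw [abs_lt] at h1 h2
  rw [abs_le] at a1 a2
  rw [mem_csq, abs_lt, abs_lt]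
  refine ⟨⟨?_, ?_⟩, ?_, ?_⟩ <;> linarith [h1.1, h1.2, h2.1, h2.2, a1.1, a1.2, a2.1, a2.2]

theorem nsup_cellC_add (hM : 0 < M) (k n : ℕ) : nsup (cellC M (k + n) - cellC M k) ≤ n * ms M := by
  have h0 := ms_pos hM
  induction n with
  | zero => simp [nsup]
  | succ n ih =>
    have e : cellC M (k + (n + 1)) - cellC M k =
        (cellC M (k + n + 1) - cellC M (k + n)) + (cellC M (k + n) - cellC M k) := by
      rw [← add_assoc]; ring
    rw [e]
    have h1 : ∀ z w : ℂ, nsup (z + w) ≤ nsup z + nsup w := by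
      intro z w
      refine max_le ?_ ?_
      · rw [add_re]
        exact (abs_add_le _ _).trans (add_le_add (le_max_left _ _) (le_max_left _ _))
      · rw [add_im]
        exact (abs_add_le _ _).trans (add_le_add (le_max_right _ _) (le_max_right _ _))
    refine (h1 _ _).trans ?_
    have := nsup_cellC_succ hM (k + n)
    push_cast
    linarith

theorem nsup_neg' (z : ℂ) : nsup (-z) = nsup z := by simp [nsup]

/-- The regions `k - n, …, k + n` are in the square window of cell `k`. -/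
theorem reg_subset_window (hM : 0 < M) {j k n : ℕ} (h1 : k ≤ j + n) (h2 : j ≤ k + n) :
    reg M j ⊆ csq (cellC M k) (5 * ms M / 8 + n * ms M) := by
  have h0 := ms_pos hM
  refine (reg_subset_csq hM j).trans ?_
  rcases le_total k j with h | h
  · obtain ⟨m, rfl⟩ := Nat.exists_eq_add_of_le h
    have hm : (m : ℝ) ≤ n := by exact_mod_cast (show m ≤ n by omega)
    exact csq_mono_of_nsup (nsup_cellC_add hM k m) (by nlinarith)
  · obtain ⟨m, rfl⟩ := Nat.exists_eq_add_of_le h
    have hm : (m : ℝ) ≤ n := by exact_mod_cast (show m ≤ n by omega)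
    refine csq_mono_of_nsup (δ := m * ms M) ?_ (by nlinarith)
    rw [← nsup_neg', neg_sub]
    exact nsup_cellC_add hM j m

/-! ### corridors inside the regions -/

/-- The points of the corridor from `z` to `z'` are near the segment. -/
theorem cbox_near {z z' v : ℂ} (hM : 0 < M) (hL : sd M ≤ ‖z' - z‖) (hv : v ∈ CBox M z z') :
    ∃ t : ℝ, 0 ≤ t ∧ t ≤ 1 ∧ ‖v - (z + (t : ℂ) * (z' - z))‖ ≤ sd M / 8 := by
  have h0 := ms_pos hM
  have hs : 0 < sd M := by unfold sd; positivity
  have hLp : 0 < ‖z' - z‖ := lt_of_lt_of_le hs hL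
  set L := ‖z' - z‖ with hLd
  obtain ⟨c1, c2, c3, c4⟩ := hv
  set ζ := cio z z' * (v - z) with hζ
  have hne : z' - z ≠ 0 := by
    intro h
    rw [h, norm_zero] at hLd
    linarith
  have hLc : (L : ℂ) ≠ 0 := by exact_mod_cast hLp.ne'
  have hcio : cio z z' * (z' - z) = L := by
    unfold cio
    rw [div_mul_eq_mul_div, mul_comm ((starRingEnd ℂ) (z' - z)), mul_conj, normSq_eq_norm_sq, ← hLd]
    push_cast
    field_simp
  have hn1 : ‖cio z z'‖ = 1 := by
    unfold cio
    rw [norm_div, norm_conj, norm_real, Real.norm_eq_abs, abs_of_pos hLp, ← hLd, div_self hLp.ne']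
  refine ⟨ζ.re / L, div_nonneg (by linarith) hLp.le, ?_, ?_⟩
  · rw [div_le_one hLp]; linarith
  · have e : cio z z' * (v - (z + ((ζ.re / L : ℝ) : ℂ) * (z' - z))) = (ζ.im : ℂ) * I := by
      have e1 : cio z z' * (v - (z + ((ζ.re / L : ℝ) : ℂ) * (z' - z))) =
          ζ - ((ζ.re / L : ℝ) : ℂ) * (cio z z' * (z' - z)) := by rw [hζ]; ring
      rw [e1, hcio]
      push_cast
      rw [div_mul_cancel₀ _ hLc]
      linear_combination -(re_add_im ζ)
    have e2 : ‖v - (z + ((ζ.re / L : ℝ) : ℂ) * (z' - z))‖ = |ζ.im| := by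
      have := congrArg norm e
      rw [norm_mul, hn1, one_mul, norm_mul, norm_real, norm_I, mul_one, Real.norm_eq_abs] at this
      exact this
    rw [e2, abs_le]
    constructor <;> linarith

theorem cbox_subset_reg (hM : 0 < M) {z z' e e' : ℂ} (hz : z = gateC M k + e)
    (hz' : z' = gateC M (k + 1) + e') (he : ‖e‖ ≤ ms M / 16) (he' : ‖e'‖ ≤ ms M / 16)
    (hL : sd M ≤ ‖z' - z‖) : CBox M z z' ⊆ reg M k := by
  intro v hv
  have h0 := ms_pos hM
  obtain ⟨t, t0, t1, ht⟩ := cbox_near hM hL hv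
  refine ⟨t, t0, t1, ?_⟩
  have e1 : v - (gateC M k + (t : ℂ) * disp M k) =
      (v - (z + (t : ℂ) * (z' - z))) + (((1 - t : ℝ) : ℂ) * e + (t : ℂ) * e') := by
    rw [hz, hz', gateC_succ hM]
    push_cast
    ring
  have e2 : ‖v - (gateC M k + (t : ℂ) * disp M k)‖ < ms M / 8 := by
    rw [e1]
    refine lt_of_le_of_lt (norm_add_le _ _) ?_
    have e3 : ‖((1 - t : ℝ) : ℂ) * e + (t : ℂ) * e'‖ ≤ ms M / 16 := by
      refine (norm_add_le _ _).trans ?_
      rw [norm_mul, norm_mul, norm_real, norm_real, Real.norm_eq_abs, Real.norm_eq_abs,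
        abs_of_nonneg (by linarith), abs_of_nonneg t0]
      nlinarith
    have : sd M = ms M / 256 := rfl
    linarith
  refine ⟨lt_of_le_of_lt ?_ e2, lt_of_le_of_lt ?_ e2⟩
  · rw [← sub_re]; exact abs_re_le_norm _
  · rw [← sub_im]; exact abs_im_le_norm _

theorem norm_uo (M k : ℕ) : ‖uo M k‖ = 1 := by
  unfold uo
  rw [norm_pow, norm_I, one_pow]

theorem pin_eq (M k : ℕ) : pin M k = gateC M k + (-(uo M k * ((ms M / 16 : ℝ) : ℂ))) := by
  unfold pin; ring

theorem pout_eq (M k : ℕ) : pout M k = gateC M k + uo M k * ((ms M / 16 : ℝ) : ℂ) := rfl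

theorem norm_off (hM : 0 < M) (k : ℕ) : ‖uo M k * ((ms M / 16 : ℝ) : ℂ)‖ = ms M / 16 := by
  have h0 := ms_pos hM
  rw [norm_mul, norm_uo, one_mul, norm_real, Real.norm_eq_abs, abs_of_pos (by positivity)]

end Vale.Agent.P148.R2.H959
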