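import Vale.Agent.P148.R2.H172.Sc2
import Vale.Agent.P148.R2.H251.W3f
import Vale.Agent.P148.R2.H504.Far

/-!
# P148, row CAL: the marks of a frame, the three arcs, their positions

Three gates `g₀ < g₁ < g₂ < g₀ + nc M` of a frame cut the main cycle, based at the foot of `g₀`,
into three arcs `[0, s₁)`, `[s₁, s₂)`, `[s₂, n)`. The three-class world of helper251 exists, and for
gates near the corners the arcs are near the bottom, the right, the left and top sides.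
-/

open Set Metric Function
open scoped Classical

namespace Vale.Agent.P148.R2.H959

open Vale.Agent.P148.R2.H258
open Vale.Agent.P148.R2.H592 (nbr ConnIn)
open Vale.Agent.P148.R2.N (ms nc gateC cellC csq ms_pos M_mul_ms ms_le_one)
open Vale.Agent.P148.R2.H566 (W0)
open Vale.Agent.P148.R2.H609 (TP piX)
open Vale.Agent.P148.R2.H172 (Frame)
open Vale.Agent.P148.R2.H251 (InArc Three3 TC pi3 W3 ArcPos BotP RigP LefP)
open Vale.Agent.P148.R2.H871 (per src0)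

variable {M : ℕ} {w : W0} {x₀ : w.X} {col : w.X → Bool}

/-- **A marked frame**: the main cycle based at the foot of the gate `g₀`, cut at the feet of the
gates `g₁`, `g₂`. The time of the foot of the gate `g₀ + k` is `F.t (g₀ + k) - F.t g₀`. -/
structure Mrk (F : Frame M w x₀ col) (g₀ g₁ g₂ n s₁ s₂ : ℕ) (c : ℕ → w.D) (τ : ℕ → ℕ) : Prop where
  loop : H659.Loop (TP w x₀) (piX w) w.O col (((TP w x₀).st col)^[F.t g₀] F.o) n c τ
  feet : H659.Feet (TP w x₀) col (((TP w x₀).st col)^[F.t g₀] F.o) (nc M)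
    (fun k => F.t (g₀ + k) - F.t g₀)
  main : H659.Main (TP w x₀) col (((TP w x₀).st col)^[F.t g₀] F.o)
    (fun k => F.t (g₀ + k) - F.t g₀) (c 0)
  mem : ∀ g, (TP w x₀).Rel col (F.c 0) g ↔ ∃ i < n, g = c i
  pos1 : 0 < s₁
  lt12 : s₁ < s₂
  lt2 : s₂ < n
  cut1 : ∀ i < n, i < s₁ ↔ τ i < F.t g₁ - F.t g₀
  cut2 : ∀ i < n, i < s₂ ↔ τ i < F.t g₂ - F.t g₀

/-- The gates of the three arcs: first gate. -/
def ag (g₀ g₁ g₂ : ℕ) (j : Fin 3) : ℕ := if j = 1 then g₀ else if j = 2 then g₁ else g₂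

/-- The gates of the three arcs: last gate. -/
def bg (M g₀ g₁ g₂ : ℕ) (j : Fin 3) : ℕ := if j = 1 then g₁ else if j = 2 then g₂ else g₀ + nc M

section mrk

variable (F : Frame M w x₀ col) {g₀ g₁ g₂ : ℕ}

theorem exists_mrk (h01 : g₀ + 3 ≤ g₁) (h12 : g₁ + 3 ≤ g₂) (h20 : g₂ + 3 ≤ g₀ + nc M) :
    ∃ n s₁ s₂ c τ, Mrk F g₀ g₁ g₂ n s₁ s₂ c τ := by
  obtain ⟨n, c, τ, hL, hF, hMn, hrel⟩ := F.exists_base g₀
  have hP : (TP w x₀).Planar := H592.HullTri.planar258 _ _ _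
  have hper : F.t (g₀ + nc M) = F.t g₀ + per (TP w x₀) col F.o := F.lt.per g₀
  have hp' : per (TP w x₀) col (((TP w x₀).st col)^[F.t g₀] F.o) = per (TP w x₀) col F.o :=
    H871.per_iter _ _ _ _
  have hm1 : F.t g₀ ≤ F.t g₁ := F.lt.mono (by omega)
  have hm2 : F.t g₁ ≤ F.t g₂ := F.lt.mono (by omega)
  have hm3 : F.t g₂ ≤ F.t (g₀ + nc M) := F.lt.mono (by omega)
  obtain ⟨s₁, hs1n, hs1, -⟩ := hL.exists_cut (T1 := w.T) (tb := F.t g₁ - F.t g₀)
    (by rw [hp']; omega)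
  obtain ⟨s₂, hs2n, hs2, -⟩ := hL.exists_cut (T1 := w.T) (tb := F.t g₂ - F.t g₀)
    (by rw [hp']; omega)
  -- a member in every three pieces
  have hex : ∀ a : ℕ, a + 3 ≤ nc M → ∃ i < n, F.t (g₀ + a) - F.t g₀ ≤ τ i ∧
      τ i < F.t (g₀ + (a + 3)) - F.t g₀ := by
    intro a ha
    obtain ⟨m, h1⟩ := hF.exists_lm hP (k := a + 1) (by omega)
    obtain ⟨k0, m0, h2, h3⟩ := hMn
    have h4 := (TP w x₀).rel_trans ((TP w x₀).rel_symm h3) (hF.rel_lm h2 h1)
    obtain ⟨-, h5, h6, -, -⟩ := h1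
    have h7 : F.t (g₀ + (a + 1 + 1)) ≤ F.t (g₀ + (a + 3)) := F.lt.mono (by omega)
    have h8 : F.t (g₀ + (a + 3)) ≤ F.t (g₀ + nc M) := F.lt.mono (by omega)
    have h9 : F.t (g₀ + a) ≤ F.t (g₀ + (a + 1)) := F.lt.mono (by omega)
    have h10 : F.t g₀ ≤ F.t (g₀ + a) := F.lt.mono (by omega)
    simp only at h5 h6
    obtain ⟨i, hi, hie⟩ := hL.all m (by rw [hp']; omega) h4
    exact ⟨i, hi, by omega, by omega⟩
  refine ⟨n, s₁, s₂, c, τ, ⟨hL, hF, hMn, hrel, ?_, ?_, ?_, hs1, hs2⟩⟩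
  · obtain ⟨i, hi, h1, h2⟩ := hex 0 (by omega)
    have h3 : F.t (g₀ + (0 + 3)) ≤ F.t g₁ := F.lt.mono (by omega)
    have := (hs1 i hi).2 (by omega)
    omega
  · obtain ⟨i, hi, h1, h2⟩ := hex (g₁ - g₀) (by omega)
    have h3 : F.t (g₀ + (g₁ - g₀ + 3)) ≤ F.t g₂ := F.lt.mono (by omega)
    have h4 : F.t g₁ ≤ F.t (g₀ + (g₁ - g₀)) := F.lt.mono (by omega)
    have h5 := (hs2 i hi).2 (by omega)
    have h6 : ¬ i < s₁ := fun hh => by
      have := (hs1 i hi).1 hh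
      omega
    omega
  · obtain ⟨i, hi, h1, h2⟩ := hex (g₂ - g₀) (by omega)
    have h4 : F.t g₂ ≤ F.t (g₀ + (g₂ - g₀)) := F.lt.mono (by omega)
    have h6 : ¬ i < s₂ := fun hh => by
      have := (hs2 i hi).1 hh
      omega
    omega

end mrk

namespace Mrk

variable {F : Frame M w x₀ col} {g₀ g₁ g₂ n s₁ s₂ : ℕ} {c : ℕ → w.D} {τ : ℕ → ℕ}
  (hm : Mrk F g₀ g₁ g₂ n s₁ s₂ c τ)
include hm

/-- The piece of a member. -/
theorem piece {i : ℕ} (hi : i < n) : ∃ k, g₀ ≤ k ∧ k < g₀ + nc M ∧ F.t k ≤ F.t g₀ + τ i ∧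
    F.t g₀ + τ i < F.t (k + 1) ∧ ((TP w x₀).src (c i)).1 ∈ reg M k ∧
    ((TP w x₀).tgt (c i)).1 ∈ reg M k ∧ ((TP w x₀).apex (c i)).1 ∈ reg M k := by
  obtain ⟨k, h1, h2⟩ := F.lt.loc (F.t g₀ + τ i)
  have hp' : per (TP w x₀) col (((TP w x₀).st col)^[F.t g₀] F.o) = per (TP w x₀) col F.o :=
    H871.per_iter _ _ _ _
  have h3 := hm.loop.lt i hi
  rw [hp'] at h3
  have h4 : F.t (g₀ + nc M) = F.t g₀ + per (TP w x₀) col F.o := F.lt.per g₀
  have h5 : g₀ < k + 1 := F.lt.lt_iff.1 (by omega)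
  have h6 : k < g₀ + nc M := F.lt.lt_iff.1 (by omega)
  have h7 := F.seen k (F.t g₀ + τ i) h1 h2
  have h8 : ((TP w x₀).st col)^[F.t g₀ + τ i] F.o = c i := by
    rw [add_comm, iterate_add_apply]
    exact hm.loop.hit i hi
  rw [h8] at h7
  exact ⟨k, by omega, h6, h1, h2, h7⟩

theorem arc_iff {i : ℕ} (hi : i < n) {k : ℕ} (h1 : F.t k ≤ F.t g₀ + τ i)
    (h2 : F.t g₀ + τ i < F.t (k + 1)) (hk : g₀ ≤ k) (hk' : k < g₀ + nc M) (h01 : g₀ ≤ g₁)
    (h12 : g₁ ≤ g₂) (_h20 : g₂ ≤ g₀ + nc M) (j : Fin 3) :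
    InArc s₁ s₂ n j i ↔ ag g₀ g₁ g₂ j ≤ k ∧ k < bg M g₀ g₁ g₂ j := by
  have m0 : F.t g₀ ≤ F.t g₁ := F.lt.mono h01
  have m1 : F.t g₀ ≤ F.t g₂ := F.lt.mono (h01.trans h12)
  have e1 : i < s₁ ↔ k < g₁ := by
    rw [hm.cut1 i hi]
    constructor
    · intro h
      exact F.lt.lt_iff.1 (by omega)
    · intro h
      have := F.lt.mono (show k + 1 ≤ g₁ by omega)
      omega
  have e2 : i < s₂ ↔ k < g₂ := by
    rw [hm.cut2 i hi]
    constructor
    · intro h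
      exact F.lt.lt_iff.1 (by omega)
    · intro h
      have := F.lt.mono (show k + 1 ≤ g₂ by omega)
      omega
  unfold InArc ag bg
  fin_cases j
  · simp only [Fin.zero_eta, Fin.isValue, zero_ne_one, false_and, false_or, ↓reduceIte,
      show ((0 : Fin 3) = 2) = False by simp, true_and]
    omega
  · simp only [Fin.mk_one, Fin.isValue, true_and, ↓reduceIte,
      show ((1 : Fin 3) = 2) = False by simp, false_and, false_or, one_ne_zero, or_false]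
    omega
  · simp only [Fin.reduceFinMk, Fin.isValue, show ((2 : Fin 3) = 1) = False by simp,
      false_and, ↓reduceIte, show ((2 : Fin 3) = 0) = False by simp, or_false, false_or, true_and]
    omega

/-- The arcs in terms of times. -/
theorem arc_time {i : ℕ} (hi : i < n) (h01 : g₀ ≤ g₁)
    (h12 : g₁ ≤ g₂) (h20 : g₂ ≤ g₀ + nc M) (j : Fin 3) :
    InArc s₁ s₂ n j i ↔ F.t (ag g₀ g₁ g₂ j) ≤ F.t g₀ + τ i ∧
      F.t g₀ + τ i < F.t (bg M g₀ g₁ g₂ j) := by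
  obtain ⟨k, h1, h2, h3, h4, -⟩ := hm.piece hi
  rw [hm.arc_iff hi h3 h4 h1 h2 h01 h12 h20 j]
  constructor
  · rintro ⟨h5, h6⟩
    have h7 := F.lt.mono h5
    have h8 := F.lt.mono (show k + 1 ≤ bg M g₀ g₁ g₂ j by omega)
    omega
  · rintro ⟨h5, h6⟩
    exact ⟨by have := F.lt.lt_iff.1 (show F.t (ag g₀ g₁ g₂ j) < F.t (k + 1) by omega); omega,
      F.lt.lt_iff.1 (show F.t k < F.t (bg M g₀ g₁ g₂ j) by omega)⟩

/-- **A member of the arc `j` is seen in a piece of the arc `j`.** -/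
theorem mem_reg (h01 : g₀ ≤ g₁) (h12 : g₁ ≤ g₂) (h20 : g₂ ≤ g₀ + nc M) {j : Fin 3} {i : ℕ}
    (hi : InArc s₁ s₂ n j i) : ∃ k, ag g₀ g₁ g₂ j ≤ k ∧ k < bg M g₀ g₁ g₂ j ∧
      F.t k ≤ F.t g₀ + τ i ∧ F.t g₀ + τ i < F.t (k + 1) ∧
      ((TP w x₀).src (c i)).1 ∈ reg M k ∧ ((TP w x₀).tgt (c i)).1 ∈ reg M k ∧
      ((TP w x₀).apex (c i)).1 ∈ reg M k := by
  have hin : i < n := by
    have := hm.lt12
    have := hm.lt2
    rcases hi with ⟨-, h⟩ | ⟨-, -, h⟩ | ⟨-, -, h⟩ <;> omega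
  obtain ⟨k, h1, h2, h3, h4, h5⟩ := hm.piece hin
  obtain ⟨a1, a2⟩ := (hm.arc_iff hin h3 h4 h1 h2 h01 h12 h20 j).1 hi
  exact ⟨k, a1, a2, h3, h4, h5⟩

end Mrk

/-! ### pieces near a straight cell -/

theorem cellC_mod (M k : ℕ) : cellC M (k % nc M) = cellC M k := by
  conv_rhs => rw [← Nat.mod_add_div k (nc M)]
  generalize k / nc M = q
  induction q with
  | zero => simp
  | succ q ih => rw [Nat.mul_succ, ← Nat.add_assoc, N.cellC_add_nc]; exact ih

theorem reg_mod (M k : ℕ) : reg M (k % nc M) = reg M k := by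
  conv_rhs => rw [← Nat.mod_add_div k (nc M)]
  generalize k / nc M = q
  induction q with
  | zero => simp
  | succ q ih => rw [Nat.mul_succ, ← Nat.add_assoc, reg_add_nc]; exact ih

theorem ball_sub_csq (z : ℂ) (r : ℝ) : ball z r ⊆ csq z r := by
  intro v hv
  rw [mem_ball, Complex.dist_eq] at hv
  rw [N.mem_csq]
  have h1 := Complex.abs_re_le_norm (v - z)
  have h2 := Complex.abs_im_le_norm (v - z)
  rw [Complex.sub_re] at h1
  rw [Complex.sub_im] at h2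
  exact ⟨h1.trans_lt hv, h2.trans_lt hv⟩

/-- A point of the region `k` near the cell `s`: the indices differ by at most `3`. -/
theorem reg_near_cell (hM : 0 < M) {g k s : ℕ} {v : ℂ} (hv : v ∈ reg M k)
    (hv' : v ∈ ball (cellC M s) (ms M)) (hk : g ≤ k) (hk' : k < g + nc M) (hs : g + 3 ≤ s)
    (hs' : s + 3 < g + nc M) : k ≤ s + 3 ∧ s ≤ k + 3 := by
  have hn : 0 < nc M := by unfold nc; omega
  have h1 : k % nc M ∈ H504.near (nc M) 3 (s % nc M) := by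
    by_contra hcon
    have h2 := H504.disjoint_csq hM (Nat.mod_lt s hn) (Nat.mod_lt k hn) hcon
      (R := ms M) (R' := 5 * ms M / 8) (by
        have := ms_pos hM
        push_cast
        linarith)
    rw [cellC_mod, cellC_mod] at h2
    exact Set.disjoint_left.1 h2 (ball_sub_csq _ _ hv') (reg_subset_csq hM k hv)
  unfold H504.near at h1
  rw [Finset.mem_filter] at h1
  obtain ⟨-, t, ht, h1⟩ := h1
  rw [Nat.mod_add_mod, Nat.mod_add_mod] at h1
  have key : ∀ a b : ℕ, g ≤ a → a < g + nc M → g ≤ b → b < g + nc M → a % nc M = b % nc M →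
      a = b := by
    intro a b ha ha' hb hb' hab
    have h3 : a ≡ b [MOD nc M] := hab
    rcases Nat.le_total a b with h4 | h4
    · have h5 := (Nat.modEq_iff_dvd' h4).1 h3
      rcases Nat.eq_zero_or_pos (b - a) with h6 | h6
      · omega
      · have := Nat.le_of_dvd h6 h5
        omega
    · have h5 := (Nat.modEq_iff_dvd' h4).1 h3.symm
      rcases Nat.eq_zero_or_pos (a - b) with h6 | h6
      · omega
      · have := Nat.le_of_dvd h6 h5
        omega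
  rcases h1 with h1 | h1
  · have := key (s + t) k (by omega) (by omega) hk hk' h1
    omega
  · have h3 : (s - t) % nc M = k % nc M := by
      have h4 : (k + t) ≡ s - t + t [MOD nc M] := by
        rw [Nat.sub_add_cancel (by omega : t ≤ s)]
        exact h1
      exact (Nat.ModEq.add_right_cancel' t h4).symm
    have := key (s - t) k (by omega) (by omega) hk hk' h3
    omega

theorem piX_eq_iff {v : w.X} : piX w v = w.O ↔ v.1 ∈ w.B := H400.piB_eq_iff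

theorem exists_straight (hM : 0 < M) (a : ℕ) :
    ∃ s, a ≤ s ∧ s ≤ a + 1 ∧ s % (2 * M + 1) ≠ 2 * M := by
  by_cases h : a % (2 * M + 1) = 2 * M
  · refine ⟨a + 1, by omega, le_rfl, ?_⟩
    rw [Nat.add_mod, h]
    have h1 : 1 % (2 * M + 1) = 1 := Nat.mod_eq_of_lt (by omega)
    rw [h1, Nat.mod_self]
    omega
  · exact ⟨a, le_rfl, by omega, h⟩

/-- Near every straight cell there is an edge from the frozen set to the free region. -/
def Edges (M : ℕ) (w : W0) : Prop :=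
  ∀ s, s % (2 * M + 1) ≠ 2 * M → ∃ u v, nbr w.X v u ∧ u ∉ w.B ∧ v ∈ w.B ∧
    v ∈ ball (cellC M s) (ms M)

namespace Mrk

variable {F : Frame M w x₀ col} {g₀ g₁ g₂ n s₁ s₂ : ℕ} {c : ℕ → w.D} {τ : ℕ → ℕ}
  (hm : Mrk F g₀ g₁ g₂ n s₁ s₂ c τ)
include hm

/-- Every arc has a member adjacent to a free site, near every straight cell well inside the
arc. -/
theorem touch_near (hM : 0 < M) (hE : Edges M w) (h01 : g₀ ≤ g₁) (h12 : g₁ ≤ g₂)
    (h20 : g₂ ≤ g₀ + nc M) {j : Fin 3} {s : ℕ} (hs : s % (2 * M + 1) ≠ 2 * M)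
    (ha : ag g₀ g₁ g₂ j + 3 ≤ s) (hb : s + 4 ≤ bg M g₀ g₁ g₂ j) :
    ∃ i y, InArc s₁ s₂ n j i ∧ y ∉ w.B ∧ nbr w.X ((TP w x₀).src (c i)).1 y ∧
      ((TP w x₀).src (c i)).1 ∈ ball (cellC M s) (ms M) := by
  obtain ⟨u, v, hvu, hu, hv, hvs⟩ := hE s hs
  obtain ⟨q, hq1, hq2⟩ := H565.HT_dart w.hull x₀ (x := ⟨v, hvu.1⟩) (y := ⟨u, hvu.2.1⟩) hvu
  change (TP w x₀).src q = _ at hq1
  change (TP w x₀).tgt q = _ at hq2
  obtain ⟨i, hi, hsrc⟩ := hm.loop.ring.ring q (by rw [hq1]; exact piX_eq_iff.2 hv)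
    (by rw [hq2]; exact fun h => hu (piX_eq_iff.1 h))
  have hsv : ((TP w x₀).src (c i)).1 = v := by rw [← hsrc, hq1]
  obtain ⟨k, h1, h2, h3, h4, h5, -, -⟩ := hm.piece hi
  rw [hsv] at h5
  have hag : g₀ ≤ ag g₀ g₁ g₂ j := by
    unfold ag; split_ifs <;> omega
  have hbg : bg M g₀ g₁ g₂ j ≤ g₀ + nc M := by
    unfold bg; split_ifs <;> omega
  have h6 := reg_near_cell hM (g := g₀) h5 hvs h1 h2 (by omega) (by omega)
  refine ⟨i, u, (hm.arc_iff hi h3 h4 h1 h2 h01 h12 h20 j).2 ⟨by omega, by omega⟩, hu, ?_, ?_⟩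
  · rw [hsv]; exact hvu
  · rw [hsv]; exact hvs

/-- The hypothesis `ht` of helper251's `exists_W3`. -/
theorem touch (hM : 0 < M) (hE : Edges M w) (h01 : g₀ + 8 ≤ g₁) (h12 : g₁ + 8 ≤ g₂)
    (h20 : g₂ + 8 ≤ g₀ + nc M) (j : Fin 3) :
    ∃ i y, InArc s₁ s₂ n j i ∧ y ∉ w.B ∧ nbr w.X ((TP w x₀).src (c i)).1 y := by
  have hlen : ag g₀ g₁ g₂ j + 8 ≤ bg M g₀ g₁ g₂ j := by
    unfold ag bg
    fin_cases j <;> simp <;> omega
  obtain ⟨s, hs1, hs2, hs⟩ := exists_straight hM (ag g₀ g₁ g₂ j + 3)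
  obtain ⟨i, y, h1, h2, h3, -⟩ := hm.touch_near hM hE (by omega) (by omega) (by omega) hs hs1
    (by omega)
  exact ⟨i, y, h1, h2, h3⟩

/-- **The three-class world of a marked frame.** -/
theorem exists_W3 (hM : 0 < M) (hE : Edges M w) (hI : ConnIn w.X (w.X \ w.B))
    (h01 : g₀ + 8 ≤ g₁) (h12 : g₁ + 8 ≤ g₂) (h20 : g₂ + 8 ≤ g₀ + nc M) :
    ∃ (O3 : Fin 3 → Set ℂ) (h3 : Three3 w.X w.B O3),
      W3 (TP w x₀) (TC w.hull h3) (piX w) w.O col c n s₁ s₂
        (fun j => {v : w.X | v.1 ∈ O3 j}) (pi3 w.X O3) Sum.inl :=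
  H251.exists_W3 w.hull x₀ w.conn hI hm.loop.ring hm.pos1 hm.lt12 hm.lt2
    (hm.touch hM hE h01 h12 h20)

end Mrk

/-! ### positions -/

/-- Local coordinates. -/
theorem exists_local (q : ℕ) (z : ℂ) : ∃ v : ℂ, z = Complex.I ^ q * v :=
  ⟨(-Complex.I) ^ q * z, by
    rw [← mul_assoc, ← mul_pow]
    have : Complex.I * -Complex.I = 1 := by rw [mul_neg, Complex.I_mul_I, neg_neg]
    rw [this, one_pow, one_mul]⟩

/-- The marks near the corners. -/
def mk0 (M m : ℕ) : ℕ := 3 * (2 * M + 1) + m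
def mk1 (M m : ℕ) : ℕ := 4 * (2 * M + 1) + m
def mk2 (M m : ℕ) : ℕ := 5 * (2 * M + 1) + m

theorem div_mod_of (M : ℕ) {q k r : ℕ} (hk : k = q * (2 * M + 1) + r) (hr : r < 2 * M + 1) :
    k / (2 * M + 1) = q ∧ k % (2 * M + 1) = r := by
  have h0 : 0 < 2 * M + 1 := by omega
  constructor
  · rw [hk, Nat.mul_comm, Nat.mul_add_div h0, Nat.div_eq_of_lt hr, Nat.add_zero]
  · rw [hk, Nat.mul_comm, Nat.mul_add_mod, Nat.mod_eq_of_lt hr]

section pos

variable {m k : ℕ} {z : ℂ}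

/-- Coordinates of a region on a given side, all cells. -/
theorem side_all (hM : 0 < M) {q r : ℕ} (hk : k = q * (2 * M + 1) + r) (hr : r < 2 * M + 1)
    (hz : z ∈ reg M k) : ∃ v : ℂ, z = Complex.I ^ q * v ∧ 1 - ms M / 8 < v.re ∧
      v.re < 1 + 5 * ms M / 8 ∧ -1 - ms M / 8 < v.im ∧ v.im < 1 + 5 * ms M / 8 := by
  obtain ⟨h1, h2⟩ := div_mod_of M hk hr
  obtain ⟨v, hv⟩ := exists_local q z
  have hz' : Complex.I ^ (k / (2 * M + 1)) * v ∈ reg M k := by rw [h1, ← hv]; exact hz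
  obtain ⟨⟨a1, a2⟩, a3, a4⟩ := reg_bound hM hz'
  exact ⟨v, hv, a1, a2, a3, a4⟩

/-- Coordinates of a region near the start of a side. -/
theorem side_start (hM : 0 < M) {q r : ℕ} (hk : k = q * (2 * M + 1) + r) (hr : r < m)
    (hm : m ≤ 2 * M) (hz : z ∈ reg M k) : ∃ v : ℂ, z = Complex.I ^ q * v ∧
      1 - ms M / 8 < v.re ∧ v.re < 1 + 5 * ms M / 8 ∧ -1 - ms M / 8 < v.im ∧
      v.im < -1 + m * ms M + ms M / 8 := by
  obtain ⟨h1, h2⟩ := div_mod_of M hk (by omega)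
  obtain ⟨v, hv⟩ := exists_local q z
  have hz' : Complex.I ^ (k / (2 * M + 1)) * v ∈ reg M k := by rw [h1, ← hv]; exact hz
  obtain ⟨⟨a1, a2⟩, a3, a4⟩ := reg_straight hM (by rw [h2]; omega) hz'
  have h0 := ms_pos hM
  rw [h2] at a3 a4
  have h5 : ((r : ℝ) + 1) * ms M ≤ m * ms M := by
    apply mul_le_mul_of_nonneg_right _ h0.le
    exact_mod_cast hr
  have h6 : 0 ≤ (r : ℝ) * ms M := by positivity
  exact ⟨v, hv, by linarith, a2, by linarith, by linarith⟩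

theorem I_pow_four' : (Complex.I : ℂ) ^ 4 = 1 := by
  rw [show (4 : ℕ) = 2 * 2 from rfl, pow_mul, Complex.I_sq]; norm_num

/-- **Bottom arc.** -/
theorem bot_pos (hM : 0 < M) (hm : m ≤ 2 * M) (h1 : mk0 M m ≤ k) (h2 : k < mk1 M m)
    (hz : z ∈ reg M k) : BotP 2 ((m + 1) * ms M) (z + (1 + Complex.I)) := by
  have h0 := ms_pos hM
  have hm0 : 0 ≤ (m : ℝ) * ms M := by positivity
  have e4 := I_pow_four'
  have e3 := I_pow_three
  unfold mk0 at h1
  unfold mk1 at h2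
  rcases Nat.lt_or_ge k (4 * (2 * M + 1)) with h | h
  · obtain ⟨v, hv, a1, a2, a3, a4⟩ := side_all hM (q := 3) (r := k - 3 * (2 * M + 1))
      (by omega) (by omega) hz
    rw [e3] at hv
    have er : z.re = v.im := by rw [hv]; simp
    have ei : z.im = -v.re := by rw [hv]; simp
    refine ⟨?_, ?_, ?_, ?_⟩ <;> simp only [Complex.add_re, Complex.add_im, Complex.one_re,
      Complex.one_im, Complex.I_re, Complex.I_im, er, ei] <;> linarith
  · obtain ⟨v, hv, a1, a2, a3, a4⟩ := side_start (m := m) hM (q := 4)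
      (r := k - 4 * (2 * M + 1)) (by omega) (by omega) hm hz
    rw [e4, one_mul] at hv
    subst hv
    refine ⟨?_, ?_, ?_, ?_⟩ <;> simp only [Complex.add_re, Complex.add_im, Complex.one_re,
      Complex.one_im, Complex.I_re, Complex.I_im] <;> linarith

/-- **Right arc.** -/
theorem rig_pos (hM : 0 < M) (hm : m ≤ 2 * M) (h1 : mk1 M m ≤ k) (h2 : k < mk2 M m)
    (hz : z ∈ reg M k) : RigP 2 ((m + 1) * ms M) (z + (1 + Complex.I)) := by
  have h0 := ms_pos hM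
  have hm0 : 0 ≤ (m : ℝ) * ms M := by positivity
  have e4 := I_pow_four'
  unfold mk1 at h1
  unfold mk2 at h2
  rcases Nat.lt_or_ge k (5 * (2 * M + 1)) with h | h
  · obtain ⟨v, hv, a1, a2, a3, a4⟩ := side_all hM (q := 4) (r := k - 4 * (2 * M + 1))
      (by omega) (by omega) hz
    rw [e4, one_mul] at hv
    subst hv
    refine ⟨?_, ?_, ?_, ?_⟩ <;> simp only [Complex.add_re, Complex.add_im, Complex.one_re,
      Complex.one_im, Complex.I_re, Complex.I_im] <;> linarith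
  · obtain ⟨v, hv, a1, a2, a3, a4⟩ := side_start (m := m) hM (q := 5)
      (r := k - 5 * (2 * M + 1)) (by omega) (by omega) hm hz
    rw [show (5 : ℕ) = 4 + 1 from rfl, pow_add, e4, one_mul, pow_one] at hv
    have er : z.re = -v.im := by rw [hv]; simp
    have ei : z.im = v.re := by rw [hv]; simp
    refine ⟨?_, ?_, ?_, ?_⟩ <;> simp only [Complex.add_re, Complex.add_im, Complex.one_re,
      Complex.one_im, Complex.I_re, Complex.I_im, er, ei] <;> linarith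

/-- **Left and top arc.** -/
theorem lef_pos (hM : 0 < M) (hm : m ≤ 2 * M) (h1 : mk2 M m ≤ k) (h2 : k < mk0 M m + nc M)
    (hz : z ∈ reg M k) : LefP 2 ((m + 1) * ms M) (z + (1 + Complex.I)) := by
  have h0 := ms_pos hM
  have hm0 : 0 ≤ (m : ℝ) * ms M := by positivity
  have e4 := I_pow_four'
  have e3 := I_pow_three
  unfold mk2 at h1
  unfold mk0 nc at h2
  rcases Nat.lt_or_ge k (6 * (2 * M + 1)) with h | h
  · obtain ⟨v, hv, a1, a2, a3, a4⟩ := side_all hM (q := 5) (r := k - 5 * (2 * M + 1))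
      (by omega) (by omega) hz
    rw [show (5 : ℕ) = 4 + 1 from rfl, pow_add, e4, one_mul, pow_one] at hv
    have er : z.re = -v.im := by rw [hv]; simp
    have ei : z.im = v.re := by rw [hv]; simp
    refine ⟨?_, ?_, Or.inr ?_⟩ <;> simp only [Complex.add_re, Complex.add_im, Complex.one_re,
      Complex.one_im, Complex.I_re, Complex.I_im, er, ei] <;> linarith
  rcases Nat.lt_or_ge k (7 * (2 * M + 1)) with h' | h'
  · obtain ⟨v, hv, a1, a2, a3, a4⟩ := side_all hM (q := 6) (r := k - 6 * (2 * M + 1))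
      (by omega) (by omega) hz
    rw [show (6 : ℕ) = 4 + 2 from rfl, pow_add, e4, one_mul, Complex.I_sq] at hv
    have er : z.re = -v.re := by rw [hv]; simp
    have ei : z.im = -v.im := by rw [hv]; simp
    refine ⟨?_, ?_, Or.inl ?_⟩ <;> simp only [Complex.add_re, Complex.add_im, Complex.one_re,
      Complex.one_im, Complex.I_re, Complex.I_im, er, ei] <;> linarith
  · obtain ⟨v, hv, a1, a2, a3, a4⟩ := side_start (m := m) hM (q := 7)
      (r := k - 7 * (2 * M + 1)) (by omega) (by omega) hm hz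
    rw [show (7 : ℕ) = 4 + 3 from rfl, pow_add, e4, one_mul, e3] at hv
    have er : z.re = v.im := by rw [hv]; simp
    have ei : z.im = -v.re := by rw [hv]; simp
    refine ⟨?_, ?_, Or.inl ?_⟩ <;> simp only [Complex.add_re, Complex.add_im, Complex.one_re,
      Complex.one_im, Complex.I_re, Complex.I_im, er, ei] <;> linarith

end pos

/-- **Positions of the arcs**: bottom, right, left and top. -/
theorem Mrk.arcPos {F : Frame M w x₀ col} {m n s₁ s₂ : ℕ} {c : ℕ → w.D} {τ : ℕ → ℕ}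
    (hm : Mrk F (mk0 M m) (mk1 M m) (mk2 M m) n s₁ s₂ c τ) (hM : 0 < M) (hm2 : m ≤ 2 * M) :
    ArcPos (TP w x₀) c n s₁ s₂ (fun v => v.1 + (1 + Complex.I)) 2 ((m + 1) * ms M) := by
  have h01 : mk0 M m ≤ mk1 M m := by unfold mk0 mk1; omega
  have h12 : mk1 M m ≤ mk2 M m := by unfold mk1 mk2; omega
  have h20 : mk2 M m ≤ mk0 M m + nc M := by unfold mk0 mk2 nc; omega
  refine ⟨fun i hi => ?_, fun i hi hi' => ?_, fun i hi hi' => ?_⟩
  · obtain ⟨k, h1, h2, -, -, h3, -⟩ := hm.mem_reg h01 h12 h20 (j := 1) (Or.inl ⟨rfl, hi⟩)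
    exact bot_pos hM hm2 h1 h2 h3
  · obtain ⟨k, h1, h2, -, -, h3, -⟩ := hm.mem_reg h01 h12 h20 (j := 2)
      (Or.inr (Or.inl ⟨rfl, hi, hi'⟩))
    exact rig_pos hM hm2 h1 h2 h3
  · obtain ⟨k, h1, h2, -, -, h3, -⟩ := hm.mem_reg h01 h12 h20 (j := 0)
      (Or.inr (Or.inr ⟨rfl, hi, hi'⟩))
    exact lef_pos hM hm2 h1 h2 h3

/-! ### positions of the marks -/

theorem gateC_side {q r k : ℕ} (hk : k = q * (2 * M + 1) + r) (hr : r < 2 * M + 1) :
    gateC M k = Complex.I ^ q * ⟨1 + ms M / 2, -1 + (r : ℕ) * ms M⟩ := by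
  obtain ⟨h1, h2⟩ := div_mod_of M hk hr
  unfold gateC
  rw [h1, h2]

theorem norm_le_of {z : ℂ} {x y : ℝ} (h1 : |z.re| ≤ x) (h2 : |z.im| ≤ y) : ‖z‖ ≤ x + y :=
  (Complex.norm_le_abs_re_add_abs_im z).trans (add_le_add h1 h2)

theorem mark0_pos (hM : 0 < M) {m : ℕ} (hm : m ≤ 2 * M) :
    ‖gateC M (mk0 M m) + (1 + Complex.I) - 0‖ ≤ (m + 1) * ms M := by
  have h0 := ms_pos hM
  have hm0 : 0 ≤ (m : ℝ) * ms M := by positivity
  rw [gateC_side (k := mk0 M m) (q := 3) (r := m) rfl (by omega), I_pow_three]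
  refine (norm_le_of (x := m * ms M) (y := ms M / 2) ?_ ?_).trans (by linarith)
  · rw [abs_le]
    constructor <;> simp <;> linarith
  · rw [abs_le]
    constructor <;> simp <;> linarith

theorem mark1_pos (hM : 0 < M) {m : ℕ} (hm : m ≤ 2 * M) :
    ‖gateC M (mk1 M m) + (1 + Complex.I) - 2‖ ≤ (m + 1) * ms M := by
  have h0 := ms_pos hM
  have hm0 : 0 ≤ (m : ℝ) * ms M := by positivity
  rw [gateC_side (k := mk1 M m) (q := 4) (r := m) rfl (by omega), I_pow_four']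
  refine (norm_le_of (x := ms M / 2) (y := m * ms M) ?_ ?_).trans (by linarith)
  · rw [abs_le]
    constructor <;> simp <;> linarith
  · rw [abs_le]
    constructor <;> simp <;> linarith

theorem mark2_pos (hM : 0 < M) {m : ℕ} (hm : m ≤ 2 * M) :
    ‖gateC M (mk2 M m) + (1 + Complex.I) - (2 + 2 * Complex.I)‖ ≤ (m + 1) * ms M := by
  have h0 := ms_pos hM
  have hm0 : 0 ≤ (m : ℝ) * ms M := by positivity
  rw [gateC_side (k := mk2 M m) (q := 5) (r := m) rfl (by omega), show (5 : ℕ) = 4 + 1 from rfl, pow_add,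
    I_pow_four', one_mul, pow_one]
  refine (norm_le_of (x := m * ms M) (y := ms M / 2) ?_ ?_).trans (by linarith)
  · rw [abs_le]
    constructor <;> simp <;> linarith
  · rw [abs_le]
    constructor <;> simp <;> linarith

/-- **Everything for the marks of row CAL.** -/
theorem exists_cal {m : ℕ} (F : Frame M w x₀ col) (hM : 8 ≤ 2 * M) (hm : m ≤ 2 * M)
    (hE : Edges M w) (hI : ConnIn w.X (w.X \ w.B)) :
    ∃ n s₁ s₂ c τ, Mrk F (mk0 M m) (mk1 M m) (mk2 M m) n s₁ s₂ c τ ∧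
      ArcPos (TP w x₀) c n s₁ s₂ (fun v => v.1 + (1 + Complex.I)) 2 ((m + 1) * ms M) ∧
      ∃ (O3 : Fin 3 → Set ℂ) (h3 : Three3 w.X w.B O3),
        W3 (TP w x₀) (TC w.hull h3) (piX w) w.O col c n s₁ s₂
          (fun j => {v : w.X | v.1 ∈ O3 j}) (pi3 w.X O3) Sum.inl := by
  have h01 : mk0 M m + 8 ≤ mk1 M m := by unfold mk0 mk1; omega
  have h12 : mk1 M m + 8 ≤ mk2 M m := by unfold mk1 mk2; omega
  have h20 : mk2 M m + 8 ≤ mk0 M m + nc M := by unfold mk0 mk2 nc; omega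
  obtain ⟨n, s₁, s₂, c, τ, h⟩ := exists_mrk F (g₀ := mk0 M m) (g₁ := mk1 M m) (g₂ := mk2 M m)
    (by omega) (by omega) (by omega)
  exact ⟨n, s₁, s₂, c, τ, h, h.arcPos (by omega) hm,
    h.exists_W3 (by omega) hE hI h01 h12 h20⟩

end Vale.Agent.P148.R2.H959
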