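import Vale.Agent.P148.R2.H678.Br2
import Vale.Agent.P148.R2.H112.Seg
import Vale.Agent.P148.R2.H959.CalPos

/-!
# P148, row CAL: edges from the frozen set to the free region near every straight cell
-/

open Set Metric Function

namespace Vale.Agent.P148.R2.H959

open Vale.Agent.P148.R2.H592 (nbr ConnIn HullTri)
open Vale.Agent.P148.R2.N (ms nc gateC cellC csq ms_pos ms_le_one)
open Vale.Agent.P148.R2.H566 (W0)
open Vale.Agent.P148.R2.H609 (TP piX)
open Vale.Agent.P148.R2.H172 (Frame combLaw cs)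
open Vale.Agent.P148.R2.H251 (Three3 TC pi3 W3 ArcPos)
open Vale.Agent.P148.R2.H995 (nsup)
open Vale.Agent.P148.R2.H678 (WD wd wrd cw E0X)
open Vale.Agent.P148.R2.H291 (site bR SiteOK)
open _root_.P148 _root_.P148.H729

variable {M : ℕ}

/-- Edges near the straight cells, from the facts of world 0. -/
theorem edges_of_WD {X : Set ℂ} {b : ZMod 3 → ℂ} {col : ℂ → Bool} {E B : Set ℂ} (hM : 0 < M)
    (hF : WD M X b col E B) (hX : X.Finite)
    (hd : ∀ z : ℂ, nsup z ≤ 1 + ms M → ∃ u ∈ X, dist u z < ms M / 64) {s : ℕ}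
    (hs : s % (2 * M + 1) ≠ 2 * M) :
    ∃ u v, nbr X v u ∧ u ∉ B ∧ v ∈ B ∧ v ∈ ball (cellC M s) (ms M) := by
  have h0 := ms_pos hM
  obtain ⟨u, hu, v, hv, huv, -, h3⟩ := H112.arc_nonempty (X := X) (E := E) (I := X \ B)
    (ρ := ms M / 64) hM hX (by positivity) le_rfl hd hF.E_nsup
    (fun z hz => hF.free_nsup z hz.1 hz.2)
    (fun z hz hzn => ⟨hz, hF.ball_free (1 - ms M / 8) le_rfl z hz (mem_ball_zero_iff.2 hzn)⟩)
    (fun u hu v huv hv => ⟨huv.2.1, fun hvB => hv (hF.bdry u v hu.2 huv hvB).1⟩) hs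
  exact ⟨u, v, H592.nbr_symm huv, hu.2, hF.E_sub hv, h3⟩

section site

variable {T : Set Pt} {R s : ℝ} (hS : SiteOK T R s)
include hS

theorem dense_site {ρ : ℝ} (hρ : s / 8 < ρ) {z : ℂ} (hz : ‖z‖ ≤ R - 1) :
    ∃ u ∈ site T R, dist u z < ρ := by
  obtain ⟨v, hv, hd⟩ := hS.net le_rfl z (by rw [mem_closedBall_zero_iff]; exact hz)
  exact ⟨v, hv, by rw [dist_comm]; exact hd.trans_lt hρ⟩

variable [Fintype (site T R)] {c₁ c₂ : site T R → Bool}

/-- **Edges of the world of a good pair of colourings.** -/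
theorem edges_site (hR : 5 ≤ R) (hM : 0 < M) (hs : s < ms M / 8)
    (hA : (combLaw hM (site T R) (Subtype.val : site T R → ℂ)).A0 c₁ c₂) :
    Edges M (wd hS.hull M (cw M c₁ c₂)) := by
  intro k hk
  have h0 := ms_pos hM
  have h1 : ms M ≤ 1 := ms_le_one
  have hF := H678.wd_site hS (by linarith) hM hA
  obtain ⟨u, v, h2, h3, h4, h5⟩ := edges_of_WD hM hF hS.hull.fin (fun z hz => by
    refine dense_site hS (by linarith) ?_
    have h6 : ‖z‖ ≤ |z.re| + |z.im| := Complex.norm_le_abs_re_add_abs_im z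
    have h7 : |z.re| ≤ nsup z := le_max_left _ _
    have h8 : |z.im| ≤ nsup z := le_max_right _ _
    linarith) hk
  exact ⟨u, v, h2, h3, h4, h5⟩

/-- **The marks of the scene**: loop, arcs, positions, three-class world. -/
theorem exists_cal_site {m : ℕ} (hR : 5 ≤ R) (hM0 : 0 < M) (hM : 4 ≤ M) (hm : m ≤ 2 * M)
    (hs : s < ms M / 8)
    (hA : (combLaw hM0 (site T R) (Subtype.val : site T R → ℂ)).A0 c₁ c₂)
    {x₀ : (wd hS.hull M (cw M c₁ c₂)).X} {col : (wd hS.hull M (cw M c₁ c₂)).X → Bool}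
    (F : Frame M (wd hS.hull M (cw M c₁ c₂)) x₀ col) :
    ∃ n s₁ s₂ c τ, Mrk F (mk0 M m) (mk1 M m) (mk2 M m) n s₁ s₂ c τ ∧
      ArcPos (TP (wd hS.hull M (cw M c₁ c₂)) x₀) c n s₁ s₂
        (fun v => v.1 + (1 + Complex.I)) 2 ((m + 1) * ms M) ∧
      ∃ (O3 : Fin 3 → Set ℂ) (h3 : Three3 (wd hS.hull M (cw M c₁ c₂)).X
          (wd hS.hull M (cw M c₁ c₂)).B O3),
        W3 (TP (wd hS.hull M (cw M c₁ c₂)) x₀) (TC (wd hS.hull M (cw M c₁ c₂)).hull h3)
          (piX (wd hS.hull M (cw M c₁ c₂))) (wd hS.hull M (cw M c₁ c₂)).O col c n s₁ s₂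
          (fun j => {v : (wd hS.hull M (cw M c₁ c₂)).X | v.1 ∈ O3 j})
          (pi3 (wd hS.hull M (cw M c₁ c₂)).X O3) Sum.inl :=
  exists_cal F (by omega) hm (edges_site hS hR hM0 hs hA)
    (H678.wd_site hS (by linarith) hM0 hA).conn_I

end site

end Vale.Agent.P148.R2.H959
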