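import Vale.Agent.P148.R2.H172.Sc6
import Vale.Agent.P148.R2.H897.CalTime
import Vale.Agent.P148.R2.H959.Edg

/-!
# P148, row CAL: the marks of the scene, on the canonical base of a frame

`mrk_can` : the marks on the canonical base `F.bn g₀`, `F.bc g₀`, `F.bt g₀`.
`Mrk.cut`, `Mrk.loopT`, `Mrk.pos_le` : the inputs `Cut`, `LoopT`, `hpos` of the calibration.
`cal_scene` : everything for the worlds of the scene of the comb.
-/

open Set Metric Function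
open scoped Classical

namespace Vale.Agent.P148.R2.H959

open Vale.Agent.P148.R2.H258
open Vale.Agent.P148.R2.H592 (nbr ConnIn HullTri)
open Vale.Agent.P148.R2.N (ms nc gateC cellC csq ms_pos M_mul_ms ms_le_one)
open Vale.Agent.P148.R2.H566 (W0)
open Vale.Agent.P148.R2.H609 (TP piX)
open Vale.Agent.P148.R2.H172 (Frame)
open Vale.Agent.P148.R2.H251 (InArc Three3 TC pi3 W3 ArcPos)
open Vale.Agent.P148.R2.H871 (per src0)
open Vale.Agent.P148.R2.H565 (LoopT)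
open Vale.Agent.P148.R2.H897 (Cut)
open Vale.Agent.P148.R2.H995 (nsup)

variable {M : ℕ} {w : W0} {x₀ : w.X} {col : w.X → Bool}

/-- The marks on a given base. -/
theorem mrk_of_base (F : Frame M w x₀ col) {g₀ g₁ g₂ n : ℕ} {c : ℕ → w.D} {τ : ℕ → ℕ}
    (hL : H659.Loop (TP w x₀) (piX w) w.O col (((TP w x₀).st col)^[F.t g₀] F.o) n c τ)
    (hF : H659.Feet (TP w x₀) col (((TP w x₀).st col)^[F.t g₀] F.o) (nc M)
      (fun k => F.t (g₀ + k) - F.t g₀))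
    (hMn : H659.Main (TP w x₀) col (((TP w x₀).st col)^[F.t g₀] F.o)
      (fun k => F.t (g₀ + k) - F.t g₀) (c 0))
    (hrel : ∀ g, (TP w x₀).Rel col (F.c 0) g ↔ ∃ i < n, g = c i)
    (h01 : g₀ + 3 ≤ g₁) (h12 : g₁ + 3 ≤ g₂) (h20 : g₂ + 3 ≤ g₀ + nc M) :
    ∃ s₁ s₂, Mrk F g₀ g₁ g₂ n s₁ s₂ c τ := by
  have hP : (TP w x₀).Planar := H592.HullTri.planar258 _ _ _
  have hper : F.t (g₀ + nc M) = F.t g₀ + per (TP w x₀) col F.o := F.lt.per g₀
  have hp' : per (TP w x₀) col (((TP w x₀).st col)^[F.t g₀] F.o) = per (TP w x₀) col F.o :=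
    H871.per_iter _ _ _ _
  have hm1 : F.t g₀ ≤ F.t g₁ := F.lt.mono (by omega)
  have hm2 : F.t g₁ ≤ F.t g₂ := F.lt.mono (by omega)
  have hm3 : F.t g₂ ≤ F.t (g₀ + nc M) := F.lt.mono (by omega)
  obtain ⟨s₁, hs1n, hs1, -⟩ := hL.exists_cut (T1 := w.T) (tb := F.t g₁ - F.t g₀)
    (by rw [hp']; omega)
  obtain ⟨s₂, hs2n, hs2, -⟩ := hL.exists_cut (T1 := w.T) (tb := F.t g₂ - F.t g₀)
    (by rw [hp']; omega)
  have hex : ∀ a : ℕ, a + 3 ≤ nc M → ∃ i < n, F.t (g₀ + a) - F.t g₀ ≤ τ i ∧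
      τ i < F.t (g₀ + (a + 3)) - F.t g₀ := by
    intro a ha
    obtain ⟨m, h1⟩ := hF.exists_lm hP (k := a + 1) (by omega)
    obtain ⟨k0, m0, h2, h3⟩ := hMn
    have h4 := (TP w x₀).rel_trans ((TP w x₀).rel_symm h3) (hF.rel_lm h2 h1)
    obtain ⟨-, h5, h6, -, -⟩ := h1
    have h7 : F.t (g₀ + (a + 1 + 1)) ≤ F.t (g₀ + (a + 3)) := F.lt.mono (by omega)
    have h8 : F.t (g₀ + (a + 3)) ≤ F.t (g₀ + nc M) := F.lt.mono (by omega)
    have h9 : F.t (g₀ + a) ≤ F.t (g₀ + (a + 1)) := F.lt.mono (by omega)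
    have h10 : F.t g₀ ≤ F.t (g₀ + a) := F.lt.mono (by omega)
    simp only at h5 h6
    obtain ⟨i, hi, hie⟩ := hL.all m (by rw [hp']; omega) h4
    exact ⟨i, hi, by omega, by omega⟩
  refine ⟨s₁, s₂, ⟨hL, hF, hMn, hrel, ?_, ?_, ?_, hs1, hs2⟩⟩
  · obtain ⟨i, hi, h1, h2⟩ := hex 0 (by omega)
    have h3 : F.t (g₀ + (0 + 3)) ≤ F.t g₁ := F.lt.mono (by omega)
    have := (hs1 i hi).2 (by omega)
    omega
  · obtain ⟨i, hi, h1, h2⟩ := hex (g₁ - g₀) (by omega)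
    have h3 : F.t (g₀ + (g₁ - g₀ + 3)) ≤ F.t g₂ := F.lt.mono (by omega)
    have h4 : F.t g₁ ≤ F.t (g₀ + (g₁ - g₀)) := F.lt.mono (by omega)
    have h5 := (hs2 i hi).2 (by omega)
    have h6 : ¬ i < s₁ := fun hh => by
      have := (hs1 i hi).1 hh
      omega
    omega
  · obtain ⟨i, hi, h1, h2⟩ := hex (g₂ - g₀) (by omega)
    have h4 : F.t g₂ ≤ F.t (g₀ + (g₂ - g₀)) := F.lt.mono (by omega)
    have h6 : ¬ i < s₂ := fun hh => by
      have := (hs2 i hi).1 hh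
      omega
    omega

/-- **The marks on the canonical base.** -/
theorem mrk_can (F : Frame M w x₀ col) {g₀ g₁ g₂ : ℕ} (h01 : g₀ + 3 ≤ g₁) (h12 : g₁ + 3 ≤ g₂)
    (h20 : g₂ + 3 ≤ g₀ + nc M) :
    ∃ s₁ s₂, Mrk F g₀ g₁ g₂ (F.bn g₀) s₁ s₂ (F.bc g₀) (F.bt g₀) :=
  mrk_of_base F (F.base_loop g₀) (F.base_feet g₀) (F.base_main g₀) (F.base_rel g₀) h01 h12 h20

namespace Mrk

variable {F : Frame M w x₀ col} {g₀ g₁ g₂ n s₁ s₂ : ℕ} {c : ℕ → w.D} {τ : ℕ → ℕ}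
  (hm : Mrk F g₀ g₁ g₂ n s₁ s₂ c τ)
include hm

/-- The cuts of helper897. -/
theorem cut (h01 : g₀ ≤ g₁) (h12 : g₁ ≤ g₂) (h20 : g₂ ≤ g₀ + nc M) :
    Cut n s₁ s₂ τ (fun k => F.t (g₀ + k) - F.t g₀) (g₁ - g₀) (g₂ - g₀) (nc M) := by
  refine ⟨fun i hi => ?_, fun i hi => ?_, by omega, by omega⟩
  · rw [hm.cut1 i hi, Nat.add_sub_cancel' h01]
  · rw [hm.cut2 i hi, Nat.add_sub_cancel' (h01.trans h12)]

/-- The closed strand based at the first mark. -/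
theorem loopT : LoopT (TP w x₀) col (nc M) (((TP w x₀).st col)^[F.t g₀] F.o)
    (fun k => F.t (g₀ + k) - F.t g₀) :=
  hm.feet.loopT

/-- Members of the main cycle are near the square. -/
theorem nsup_le (hM : 0 < M) {i : ℕ} (hi : i < n) :
    1 - ms M / 8 < nsup ((TP w x₀).src (c i)).1 ∧
      nsup ((TP w x₀).src (c i)).1 < 1 + 5 * ms M / 8 := by
  obtain ⟨k, -, -, -, -, h, -⟩ := hm.piece hi
  exact reg_nsup hM h

/-- **Distances along the main cycle.** -/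
theorem pos_le (hM : 0 < M) {i j : ℕ} (hi : i < n) (hj : j < n) :
    ‖(((TP w x₀).src (c j)).1 + (1 + Complex.I)) - (((TP w x₀).src (c i)).1 + (1 + Complex.I))‖
      ≤ 7 := by
  have h1 := (hm.nsup_le hM hi).2
  have h2 := (hm.nsup_le hM hj).2
  have h3 : ms M ≤ 1 := ms_le_one
  generalize ((TP w x₀).src (c i)).1 = x at h1 ⊢
  generalize ((TP w x₀).src (c j)).1 = y at h2 ⊢
  have a1 : |x.re| ≤ nsup x := le_max_left _ _
  have a2 : |x.im| ≤ nsup x := le_max_right _ _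
  have b1 : |y.re| ≤ nsup y := le_max_left _ _
  have b2 : |y.im| ≤ nsup y := le_max_right _ _
  rw [abs_le] at a1 a2 b1 b2
  have e : (y + (1 + Complex.I)) - (x + (1 + Complex.I)) = y - x := by ring
  rw [e]
  have h4 : ‖y - x‖ ≤ 13 / 4 + 13 / 4 := norm_le_of
    (by rw [Complex.sub_re, abs_le]; constructor <;> linarith)
    (by rw [Complex.sub_im, abs_le]; constructor <;> linarith)
  linarith

end Mrk

/-! ### everything for one world -/

/-- **The geometric inputs of the calibration of one world**, on the canonical base of the frame,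
for the marks `mk0 M m`, `mk1 M m`, `mk2 M m`. -/
structure CalB (F : Frame M w x₀ col) (m s₁ s₂ : ℕ) (O3 : Fin 3 → Set ℂ)
    (h3 : Three3 w.X w.B O3) : Prop where
  mrk : Mrk F (mk0 M m) (mk1 M m) (mk2 M m) (F.bn (mk0 M m)) s₁ s₂ (F.bc (mk0 M m))
    (F.bt (mk0 M m))
  lt : LoopT (TP w x₀) col (nc M) (F.ob (mk0 M m)) (F.tb (mk0 M m))
  loop : H659.Loop (TP w x₀) (piX w) w.O col (F.ob (mk0 M m)) (F.bn (mk0 M m))
    (F.bc (mk0 M m)) (F.bt (mk0 M m))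
  cut : Cut (F.bn (mk0 M m)) s₁ s₂ (F.bt (mk0 M m)) (F.tb (mk0 M m)) (2 * M + 1)
    (2 * (2 * M + 1)) (nc M)
  arcPos : ArcPos (TP w x₀) (F.bc (mk0 M m)) (F.bn (mk0 M m)) s₁ s₂
    (fun v => v.1 + (1 + Complex.I)) 2 ((m + 1) * ms M)
  pos_le : ∀ i < F.bn (mk0 M m), ∀ j < F.bn (mk0 M m),
    ‖(((TP w x₀).src (F.bc (mk0 M m) j)).1 + (1 + Complex.I)) -
      (((TP w x₀).src (F.bc (mk0 M m) i)).1 + (1 + Complex.I))‖ ≤ 7
  w3 : W3 (TP w x₀) (TC w.hull h3) (piX w) w.O col (F.bc (mk0 M m)) (F.bn (mk0 M m)) s₁ s₂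
    (fun j => {v : w.X | v.1 ∈ O3 j}) (pi3 w.X O3) Sum.inl

/-- **The geometric inputs of the calibration exist.** -/
theorem exists_calB {m : ℕ} (F : Frame M w x₀ col) (hM : 4 ≤ M) (hm : m ≤ 2 * M)
    (hE : Edges M w) (hI : ConnIn w.X (w.X \ w.B)) : ∃ s₁ s₂ O3 h3, CalB F m s₁ s₂ O3 h3 := by
  have h01 : mk0 M m + 8 ≤ mk1 M m := by unfold mk0 mk1; omega
  have h12 : mk1 M m + 8 ≤ mk2 M m := by unfold mk1 mk2; omega
  have h20 : mk2 M m + 8 ≤ mk0 M m + nc M := by unfold mk0 mk2 nc; omega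
  obtain ⟨s₁, s₂, h⟩ := mrk_can F (g₀ := mk0 M m) (g₁ := mk1 M m) (g₂ := mk2 M m)
    (by omega) (by omega) (by omega)
  obtain ⟨O3, h3, hW⟩ := h.exists_W3 (by omega) hE hI h01 h12 h20
  have hc := h.cut (by omega) (by omega) (by omega)
  have e1 : mk1 M m - mk0 M m = 2 * M + 1 := by unfold mk0 mk1; omega
  have e2 : mk2 M m - mk0 M m = 2 * (2 * M + 1) := by unfold mk0 mk2; omega
  rw [e1, e2] at hc
  exact ⟨s₁, s₂, O3, h3, h, h.loopT, h.loop, hc, h.arcPos (by omega) hm,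
    fun i hi j hj => h.pos_le (by omega) hi hj, hW⟩

/-! ### the scene of the comb -/

section scene

open Vale.Agent.P148.R2.H172 (GoodT fscOf mc)
open _root_.P148 _root_.P148.H729

variable {c : ℝ} {T : Set Pt} (h : GoodT c M T) (hM : 0 < M)
  {i : (H291.site T 9 → Bool) × (H291.site T 9 → Bool)}
  (hi : (fscOf hM h.site.hull).p i ≠ 0)
include hi

/-- Edges from the frozen set to the free region near every straight cell. -/
theorem scene_edges : Edges M ((fscOf hM h.site.hull).w i) := by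
  intro k hk
  have h0 := ms_pos hM
  have h1 : ms M ≤ 1 := ms_le_one
  obtain ⟨u, v, h2, h3, h4, h5⟩ := edges_of_WD hM (h.wdD hM hi) h.site.hull.fin (fun z hz => by
    refine dense_site h.site (by linarith) ?_
    have h6 : ‖z‖ ≤ |z.re| + |z.im| := Complex.norm_le_abs_re_add_abs_im z
    have h7 : |z.re| ≤ nsup z := le_max_left _ _
    have h8 : |z.im| ≤ nsup z := le_max_right _ _
    linarith) hk
  exact ⟨u, v, h2, h3, h4, h5⟩

/-- **The geometric inputs of the calibration for the worlds of the scene.** -/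
theorem scene_calB (h4 : 4 ≤ M) {m : ℕ} (hm : m ≤ 2 * M)
    (F : Frame M ((fscOf hM h.site.hull).w i) ((fscOf hM h.site.hull).x₀ i)
      ((fscOf hM h.site.hull).col i)) : ∃ s₁ s₂ O3 h3, CalB F m s₁ s₂ O3 h3 :=
  exists_calB F h4 hm (scene_edges h hM hi) (h.wdD hM hi).conn_I

end scene

end Vale.Agent.P148.R2.H959
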